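import Vale.Agent.P156.H574.FE3

/-! # P156, fixed energy upgrade, block FE2: growth -/

open MeasureTheory Filter Topology Matrix Finset

namespace Vale.Agent.P156.H574

open Vale.Agent.P156 Vale.Agent.P156.FE

noncomputable section

variable {n d K : ℕ}

@[simp] theorem zz_im (E η : ℝ) : (zz E η).im = η := by simp [zz]

@[simp] theorem zz_re (E η : ℝ) : (zz E η).re = E := by simp [zz]

theorem zz_sub (E η η' : ℝ) : zz E η - zz E η' = ((η - η' : ℝ) : ℂ) * Complex.I := by
  unfold zz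
  push_cast
  ring

theorem norm_zz_sub (E η η' : ℝ) : ‖zz E η - zz E η'‖ = |η - η'| := by
  rw [zz_sub, norm_mul, Complex.norm_I, mul_one, Complex.norm_real, Real.norm_eq_abs]

theorem norm_zz_le (E : ℝ) {η : ℝ} (h0 : 0 ≤ η) (h1 : η ≤ 1) : ‖zz E η‖ ≤ |E| + 1 := by
  unfold zz
  refine (norm_add_le _ _).trans ?_
  rw [norm_mul, Complex.norm_I, mul_one, Complex.norm_real, Complex.norm_real, Real.norm_eq_abs,
    Real.norm_eq_abs, abs_of_nonneg h0]
  linarith

/-- comparison of imaginary parts of diagonal entries at `E + iη` and `E + iHη` -/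
theorem im_growth (G : SimpleGraph (Fin n)) (D : Finset (Fin n)) (w : Fin n) (E : ℝ) {η H : ℝ}
    (hη : 0 < η) (hH : 1 ≤ H) :
    (resD (adj G) D (zz E η) w w).im ≤ H * (resD (adj G) D (zz E (H * η)) w w).im ∧
    (resD (adj G) D (zz E (H * η)) w w).im ≤ H * (resD (adj G) D (zz E η) w w).im := by
  have hH0 : 0 < H := by linarith
  have hHη : 0 < H * η := by positivity
  have hA := _root_.P156.H613.adj_isSymm G
  have h1 := _root_.P156.H613.pick_resD hA D w (z := zz E η) (z' := zz E (H * η))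
    (by simpa using hη) (by simpa using hHη)
  have h2 := _root_.P156.H613.resD_im_nonneg hA D w (z := zz E η) (by simpa using hη)
  have h3 := _root_.P156.H613.resD_im_nonneg hA D w (z := zz E (H * η)) (by simpa using hHη)
  set u := resD (adj G) D (zz E η) w w with hu
  set v := resD (adj G) D (zz E (H * η)) w w with hv
  rw [norm_zz_sub, zz_im, zz_im] at h1
  have h4 : (u.im - v.im) ^ 2 ≤ ‖u - v‖ ^ 2 := by
    have := Complex.abs_im_le_norm (u - v)
    rw [Complex.sub_im] at this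
    calc (u.im - v.im) ^ 2 = |u.im - v.im| ^ 2 := (sq_abs _).symm
      _ ≤ ‖u - v‖ ^ 2 := pow_le_pow_left₀ (abs_nonneg _) this 2
  have h5 : |η - H * η| ^ 2 / (η * (H * η)) = (H - 1) ^ 2 / H := by
    rw [sq_abs]
    field_simp
    ring
  rw [h5] at h1
  have h6 : H * (u.im - v.im) ^ 2 ≤ (H - 1) ^ 2 * (u.im * v.im) := by
    have h7 := h4.trans h1
    have h8 : (H - 1) ^ 2 / H * (u.im * v.im) = ((H - 1) ^ 2 * (u.im * v.im)) / H := by ring
    rw [h8, le_div_iff₀ hH0] at h7
    linarith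
  have h7 : (H * u.im - v.im) * (u.im - H * v.im) ≤ 0 := by nlinarith
  constructor
  · by_contra hcon
    push Not at hcon
    have h8 : v.im ≤ H * v.im := by nlinarith
    have h9 : u.im ≤ H * u.im := by nlinarith
    have h10 : 0 < H * u.im - v.im := by linarith
    have h11 : 0 < u.im - H * v.im := by linarith
    have := mul_pos h10 h11
    linarith
  · by_contra hcon
    push Not at hcon
    have h8 : v.im ≤ H * v.im := by nlinarith
    have h9 : u.im ≤ H * u.im := by nlinarith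
    have h10 : H * u.im - v.im < 0 := by linarith
    have h11 : u.im - H * v.im < 0 := by linarith
    have := mul_pos_of_neg_of_neg h10 h11
    linarith

/-- the cut matrices at two spectral parameters -/
theorem cutMat_sub (A : Matrix (Fin n) (Fin n) ℝ) (D : Finset (Fin n)) (z z' : ℂ) :
    cutMat A D z' - cutMat A D z =
      (z - z') • Matrix.diagonal (fun i => ((_root_.P156.H613.cutP D i : ℝ) : ℂ)) := by
  ext x y
  simp only [cutMat, _root_.P156.H613.cutP, Matrix.sub_apply, Matrix.smul_apply,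
    Matrix.diagonal_apply, smul_eq_mul]
  by_cases hx : x ∈ D
  · by_cases hxy : x = y <;> simp [hx, hxy]
    subst hxy
    simp [hx]
  · by_cases hy : y ∈ D
    · have hxy : x ≠ y := fun h => hx (h ▸ hy)
      simp [hx, hy, hxy]
    · by_cases hxy : x = y
      · subst hxy
        simp [hx]
      · simp [hx, hy, hxy]

/-- resolvent identity for the cut resolvents -/
theorem resD_sub (G : SimpleGraph (Fin n)) (D : Finset (Fin n)) {z z' : ℂ} (hz : 0 < z.im)
    (hz' : 0 < z'.im) (x y : Fin n) :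
    resD (adj G) D z x y - resD (adj G) D z' x y =
      (z - z') * ∑ i, ((_root_.P156.H613.cutP D i : ℝ) : ℂ) *
        (resD (adj G) D z i x * resD (adj G) D z' i y) := by
  have hu := cut_unit G D hz
  have hu' := cut_unit G D hz'
  have h1 : resD (adj G) D z - resD (adj G) D z' =
      resD (adj G) D z * (cutMat (adj G) D z' - cutMat (adj G) D z) * resD (adj G) D z' := by
    rw [Matrix.mul_sub, Matrix.sub_mul]
    unfold resD
    rw [Matrix.mul_assoc, Matrix.mul_nonsing_inv _ hu', Matrix.mul_one,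
      Matrix.nonsing_inv_mul _ hu, Matrix.one_mul]
  have h2 := congrFun (congrFun h1 x) y
  rw [Matrix.sub_apply] at h2
  rw [h2, cutMat_sub, Matrix.mul_smul, Matrix.smul_mul, Matrix.smul_apply, smul_eq_mul,
    Matrix.mul_apply]
  congr 1
  refine Finset.sum_congr rfl fun i _ => ?_
  rw [Matrix.mul_diagonal]
  have h3 : resD (adj G) D z x i = resD (adj G) D z i x :=
    congrFun (congrFun (H520.res_symm G D z) i) x
  rw [h3]
  ring

/-- growth of the entries -/
theorem entry_growth (G : SimpleGraph (Fin n)) (D : Finset (Fin n)) (x y : Fin n) (E : ℝ)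
    {η H : ℝ} (hη : 0 < η) (hH : 1 ≤ H) :
    ‖resD (adj G) D (zz E η) x y‖ ≤ ‖resD (adj G) D (zz E (H * η)) x y‖ +
      (H - 1) / 2 * ((resD (adj G) D (zz E (H * η)) x x).im +
        (resD (adj G) D (zz E (H * η)) y y).im) := by
  have hH0 : 0 < H := by linarith
  have hHη : 0 < H * η := by positivity
  have hA := _root_.P156.H613.adj_isSymm G
  have hz : 0 < (zz E η).im := by simpa using hη
  have hz' : 0 < (zz E (H * η)).im := by simpa using hHη
  set z := zz E η with hzd
  set z' := zz E (H * η) with hzd'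
  have e1 := resD_sub G D hz hz' x y
  set p := _root_.P156.H613.cutP D with hp
  have hp0 : ∀ i, 0 ≤ p i := _root_.P156.H613.cutP_nonneg D
  set a := ∑ i, p i * ‖resD (adj G) D z i x‖ ^ 2 with ha
  set b := ∑ i, p i * ‖resD (adj G) D z' i y‖ ^ 2 with hb
  have e2 : (resD (adj G) D z x x).im = η * a := by
    rw [_root_.P156.H613.resD_im hA D x hz, hzd, zz_im]
  have e3 : (resD (adj G) D z' y y).im = H * η * b := by
    rw [_root_.P156.H613.resD_im hA D y hz', hzd', zz_im]
  have e4 : ‖∑ i, ((p i : ℝ) : ℂ) * (resD (adj G) D z i x * resD (adj G) D z' i y)‖ ≤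
      (a / H + H * b) / 2 := by
    refine (norm_sum_le _ _).trans ?_
    have : (a / H + H * b) / 2 = ∑ i, p i * ((‖resD (adj G) D z i x‖ ^ 2 / H +
        H * ‖resD (adj G) D z' i y‖ ^ 2) / 2) := by
      rw [ha, hb, Finset.sum_div, Finset.mul_sum, ← Finset.sum_add_distrib, Finset.sum_div]
      refine Finset.sum_congr rfl fun i _ => ?_
      ring
    rw [this]
    refine Finset.sum_le_sum fun i _ => ?_
    rw [norm_mul, norm_mul, Complex.norm_real, Real.norm_of_nonneg (hp0 i)]
    refine mul_le_mul_of_nonneg_left ?_ (hp0 i)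
    set s := ‖resD (adj G) D z i x‖
    set t := ‖resD (adj G) D z' i y‖
    have h0 : 0 ≤ (s - H * t) ^ 2 / H := by positivity
    have h1 : (s - H * t) ^ 2 / H = s ^ 2 / H + H * t ^ 2 - 2 * (s * t) := by
      field_simp
      ring
    linarith
  have e5 : ‖resD (adj G) D z x y - resD (adj G) D z' x y‖ ≤
      (H - 1) / 2 * ((resD (adj G) D z' x x).im + (resD (adj G) D z' y y).im) := by
    rw [e1, norm_mul]
    have h1 : ‖z - z'‖ = (H - 1) * η := by
      rw [hzd, hzd', norm_zz_sub, abs_sub_comm, abs_of_nonneg (by nlinarith)]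
      ring
    rw [h1]
    have h2 : 0 ≤ (H - 1) * η := mul_nonneg (by linarith) hη.le
    have h3 : η * a ≤ H * (resD (adj G) D z' x x).im := by
      rw [← e2]
      exact (im_growth G D x E hη hH).1
    have h4 : η * a / H ≤ (resD (adj G) D z' x x).im := by
      rw [div_le_iff₀ hH0]
      linarith
    calc (H - 1) * η * ‖∑ i, ((p i : ℝ) : ℂ) * (resD (adj G) D z i x * resD (adj G) D z' i y)‖
        ≤ (H - 1) * η * ((a / H + H * b) / 2) := mul_le_mul_of_nonneg_left e4 h2
      _ = (H - 1) / 2 * (η * a / H + H * η * b) := by ring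
      _ ≤ (H - 1) / 2 * ((resD (adj G) D z' x x).im + (resD (adj G) D z' y y).im) := by
          rw [e3]
          have : 0 ≤ (H - 1) / 2 := by linarith
          gcongr
  calc ‖resD (adj G) D z x y‖ = ‖resD (adj G) D z' x y +
        (resD (adj G) D z x y - resD (adj G) D z' x y)‖ := by
        congr 1
        ring
    _ ≤ ‖resD (adj G) D z' x y‖ + ‖resD (adj G) D z x y - resD (adj G) D z' x y‖ :=
        norm_add_le _ _
    _ ≤ _ := by linarith

/-- growth with a uniform bound -/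
theorem entry_growth_le (G : SimpleGraph (Fin n)) (D : Finset (Fin n)) (x y : Fin n) (E : ℝ)
    {η H M : ℝ} (hη : 0 < η) (hH : 1 ≤ H) (h1 : ‖resD (adj G) D (zz E (H * η)) x y‖ ≤ M)
    (h2 : ‖resD (adj G) D (zz E (H * η)) x x‖ ≤ M)
    (h3 : ‖resD (adj G) D (zz E (H * η)) y y‖ ≤ M) :
    ‖resD (adj G) D (zz E η) x y‖ ≤ M * H := by
  have h4 := entry_growth G D x y E hη hH
  have h5 := (le_abs_self _).trans (Complex.abs_im_le_norm (resD (adj G) D (zz E (H * η)) x x))
  have h6 := (le_abs_self _).trans (Complex.abs_im_le_norm (resD (adj G) D (zz E (H * η)) y y))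
  have h7 : 0 ≤ (H - 1) / 2 := by linarith
  calc ‖resD (adj G) D (zz E η) x y‖ ≤ M + (H - 1) / 2 * (M + M) := by
        refine h4.trans ?_
        gcongr
        · linarith
        · linarith
    _ = M * H := by ring

/-- entries are close when the truncated sum of squares is small -/
theorem entry_le_of_min {ι κ : Type*} [Fintype ι] [Fintype κ] {F : ι → κ → ℂ} {c : ℝ}
    (hc : c < 1) (h : min 1 (∑ a, ∑ b, ‖F a b‖ ^ 2) ≤ c) (a : ι) (b : κ) : ‖F a b‖ ^ 2 ≤ c := by
  have h1 : ∑ a, ∑ b, ‖F a b‖ ^ 2 ≤ c := by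
    rcases min_le_iff.1 h with h | h
    · linarith
    · exact h
  have h2 : ‖F a b‖ ^ 2 ≤ ∑ b, ‖F a b‖ ^ 2 :=
    Finset.single_le_sum (f := fun b => ‖F a b‖ ^ 2) (fun _ _ => sq_nonneg _) (Finset.mem_univ b)
  have h3 : ∑ b, ‖F a b‖ ^ 2 ≤ ∑ a, ∑ b, ‖F a b‖ ^ 2 :=
    Finset.single_le_sum (f := fun a => ∑ b, ‖F a b‖ ^ 2)
      (fun _ _ => Finset.sum_nonneg fun _ _ => sq_nonneg _) (Finset.mem_univ a)
  linarith

/-- `dev` of one of the stars is at most `dev` -/
theorem dev_sub1_le (ω : SimpleGraph (Fin n) × StarPos n d K) (j : Fin K) (z : ℂ) :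
    dev (sub1 ω j) z ≤ dev ω z := by
  unfold dev
  refine min_le_min le_rfl ?_
  simp only [Fintype.sum_prod_type, Fin.sum_univ_one]
  have h1 : ∀ (x y : Option (Fin d)), starMat (sub1 ω j) z ((0 : Fin 1), x) ((0 : Fin 1), y) -
      H520.Kz d z (mm d z) 1 (0, x) (0, y) =
      starMat ω z (j, x) (j, y) - H520.Kz d z (mm d z) K (j, x) (j, y) := by
    intro x y
    rw [starMat_sub1]
    congr 1
    unfold H520.Kz
    simp
  simp only [h1]
  have h2 : ∑ x : Option (Fin d), ∑ y : Option (Fin d),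
      ‖starMat ω z (j, x) (j, y) - H520.Kz d z (mm d z) K (j, x) (j, y)‖ ^ 2 ≤
      ∑ x : Option (Fin d), ∑ k : Fin K, ∑ y : Option (Fin d),
        ‖starMat ω z (j, x) (k, y) - H520.Kz d z (mm d z) K (j, x) (k, y)‖ ^ 2 := by
    refine Finset.sum_le_sum fun x _ => ?_
    exact Finset.single_le_sum (f := fun k => ∑ y : Option (Fin d),
      ‖starMat ω z (j, x) (k, y) - H520.Kz d z (mm d z) K (j, x) (k, y)‖ ^ 2)
      (fun _ _ => Finset.sum_nonneg fun _ _ => sq_nonneg _) (Finset.mem_univ j)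
  refine h2.trans ?_
  exact Finset.single_le_sum (f := fun i => ∑ x : Option (Fin d), ∑ k : Fin K,
    ∑ y : Option (Fin d),
      ‖starMat ω z (i, x) (k, y) - H520.Kz d z (mm d z) K (i, x) (k, y)‖ ^ 2)
    (fun _ _ => Finset.sum_nonneg fun _ _ => Finset.sum_nonneg fun _ _ =>
      Finset.sum_nonneg fun _ _ => sq_nonneg _) (Finset.mem_univ j)

theorem norm_Kz_le {c : ℝ} {z m : ℂ} (hc : 0 < c) (hz : 0 ≤ z.im) (hd : 1 ≤ d) (hm : c ≤ m.im)
    (hm1 : ‖m‖ ≤ 1) (x y : Fin K × Option (Fin d)) : ‖H520.Kz d z m K x y‖ ≤ c⁻¹ := by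
  unfold H520.Kz
  split_ifs
  · rw [norm_mul, norm_pow, norm_neg, norm_div, norm_neg, norm_one]
    have h1 : c ≤ ‖z + d * m‖ := by
      have h2 : (z + d * m).im = z.im + d * m.im := by
        rw [Complex.add_im]
        congr 1
        have : ((d : ℂ)) = ((d : ℝ) : ℂ) := by push_cast; rfl
        rw [this, Complex.im_ofReal_mul]
      have h3 := (le_abs_self _).trans (Complex.abs_im_le_norm (z + d * m))
      have h4 : (1 : ℝ) ≤ d := by exact_mod_cast hd
      rw [h2] at h3
      nlinarith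
    have h5 : 1 / ‖z + d * m‖ ≤ c⁻¹ := by
      rw [one_div]
      exact inv_anti₀ hc h1
    have h6 : ‖m‖ ^ starDist x.2 y.2 ≤ 1 := pow_le_one₀ (norm_nonneg _) hm1
    calc 1 / ‖z + d * m‖ * ‖m‖ ^ starDist x.2 y.2 ≤ c⁻¹ * 1 := by
          gcongr
      _ = c⁻¹ := mul_one _
  · rw [norm_zero]
    positivity

/-- the inverse of the centre matrix is bounded by the lead matrix -/
theorem centre_inv_le {ω : SimpleGraph (Fin n) × StarPos n d K} (hω : ω ∈ ZZs n d K) {z : ℂ}
    (hz : 0 < z.im) {M : ℝ} (h : ∀ p r, ‖leadMat ω z p r‖ ≤ M) (i j : Fin K) :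
    ‖(centreMat ω z)⁻¹ i j‖ ≤ ‖z‖ + (d : ℝ) ^ 2 * M := by
  rw [H490.centreMat_inv hω (cut_unit _ _ hz) (cut_unit _ _ hz), norm_neg]
  refine (norm_add_le _ _).trans (add_le_add ?_ ?_)
  · split_ifs
    · exact le_rfl
    · rw [norm_zero]
      exact norm_nonneg _
  · calc ‖∑ k : Fin d, ∑ k' : Fin d, leadMat ω z (i, k) (j, k')‖
        ≤ ∑ _k : Fin d, ∑ _k' : Fin d, M := by
          refine (norm_sum_le _ _).trans (Finset.sum_le_sum fun k _ => ?_)
          exact (norm_sum_le _ _).trans (Finset.sum_le_sum fun k' _ => h _ _)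
      _ = (d : ℝ) ^ 2 * M := by
          simp only [Finset.sum_const, Finset.card_univ, Fintype.card_fin, nsmul_eq_mul]
          ring

theorem centre_sub1_inv (ω : SimpleGraph (Fin n) × StarPos n d K) (z : ℂ) (k : Fin K) :
    (centreMat (sub1 ω k) z)⁻¹ 0 0 = (starMat ω z (k, none) (k, none))⁻¹ := by
  rw [Matrix.inv_def, Matrix.det_fin_one, Matrix.adjugate_fin_one]
  simp only [Matrix.smul_apply, Matrix.one_apply_eq, smul_eq_mul, mul_one, Ring.inverse_eq_inv']
  rfl

/-- **FE2**: growth. -/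
theorem specGrow {a b : ℝ} (hd : 1 ≤ d) (hMs : SpecM d a b) (hCs : SpecComp d a b) :
    SpecGrow d a b := by
  classical
  obtain ⟨c, hc0, hc1, hMz, -, -⟩ := hMs
  intro K
  obtain ⟨CK, hCK, hCK'⟩ := hCs K
  obtain ⟨C1, hC1, hC1'⟩ := hCs 1
  have hCK0 : 0 < CK := by linarith
  have hC10 : 0 < C1 := by linarith
  set Z : ℝ := |a| + |b| + 1 with hZ
  have hZ1 : 1 ≤ Z := by
    have := abs_nonneg a
    have := abs_nonneg b
    linarith
  set c₁ : ℝ := (c / 2) ^ 2 / (C1 * CK) with hc₁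
  have hc₁pos : 0 < c₁ := by positivity
  have hCC : 1 ≤ C1 * CK := by nlinarith
  have hc2 : (c / 2) ^ 2 ≤ 1 / 4 := by nlinarith
  have hc₁le : c₁ ≤ (c / 2) ^ 2 := div_le_self (sq_nonneg _) hCC
  have hc₁lt : c₁ < 1 := by linarith
  have hCKc : CK * c₁ ≤ (c / 2) ^ 2 := by
    rw [hc₁, mul_div_assoc', div_le_iff₀ (by positivity)]
    have : 0 ≤ CK * (c / 2) ^ 2 := by positivity
    nlinarith
  have hCCc : C1 * (CK * c₁) = (c / 2) ^ 2 := by
    rw [hc₁]
    field_simp
  refine ⟨c₁, hc₁pos, 2 + 2 / c + 1 + Z + 2 * (d : ℝ) ^ 2, ?_, ?_⟩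
  · have : 0 < 2 / c := by positivity
    have : (0 : ℝ) ≤ (d : ℝ) ^ 2 := by positivity
    linarith
  intro n ω hω E hE η H hη hH hHη hrho
  have hH0 : 0 < H := by linarith
  have hHη0 : 0 < H * η := by positivity
  have hη1 : η ≤ 1 := by nlinarith
  set C : ℝ := 2 + 2 / c + 1 + Z + 2 * (d : ℝ) ^ 2 with hC
  have h2c : 0 < 2 / c := by positivity
  have hd2 : (0 : ℝ) ≤ (d : ℝ) ^ 2 := by positivity
  obtain ⟨hmi, hm1, -, -, -⟩ := hMz E hE (H * η) hHη0 hHη
  set z := zz E η with hzd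
  set z' := zz E (H * η) with hzd'
  have hz : 0 < z.im := by rw [hzd, zz_im]; exact hη
  have hz' : 0 < z'.im := by rw [hzd', zz_im]; exact hHη0
  set m := mm d z' with hm
  have hzn : ‖z‖ ≤ Z := by
    refine (norm_zz_le E hη.le hη1).trans ?_
    have : |E| ≤ |a| + |b| := by
      rw [abs_le]
      have h1 := hE.1
      have h2 := hE.2
      have h3 := neg_abs_le a
      have h4 := le_abs_self b
      have h5 := abs_nonneg a
      have h6 := abs_nonneg b
      constructor <;> linarith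
    linarith
  -- lead entries at the large scale
  have hc2' : c / 2 ≤ 1 / 2 := by linarith
  have hlead : ∀ {K' : ℕ} (ω' : SimpleGraph (Fin n) × StarPos n d K'),
      FE.rho ω' z' ≤ (c / 2) ^ 2 →
      ∀ p r, ‖leadMat ω' z' p r - (if p = r then m else 0)‖ ≤ c / 2 := by
    intro K' ω' h p r
    have h1 := entry_le_of_min (F := fun p r => leadMat ω' z' p r - (if p = r then m else 0))
      (by linarith) h p r
    exact (sq_le_sq₀ (norm_nonneg _) (by positivity)).1 h1
  have hlead2 : ∀ {K' : ℕ} (ω' : SimpleGraph (Fin n) × StarPos n d K'),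
      FE.rho ω' z' ≤ (c / 2) ^ 2 → ∀ p r, ‖leadMat ω' z' p r‖ ≤ 2 := by
    intro K' ω' h p r
    have h1 := hlead ω' h p r
    have h2 : ‖(if p = r then m else 0 : ℂ)‖ ≤ 1 := by
      split_ifs
      · exact hm1
      · simp
    calc ‖leadMat ω' z' p r‖ = ‖(leadMat ω' z' p r - (if p = r then m else 0)) +
          (if p = r then m else 0)‖ := by rw [sub_add_cancel]
      _ ≤ c / 2 + 1 := (norm_add_le _ _).trans (add_le_add h1 h2)
      _ ≤ 2 := by linarith
  have hlead3 : ∀ {K' : ℕ} (ω' : SimpleGraph (Fin n) × StarPos n d K'),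
      FE.rho ω' z' ≤ (c / 2) ^ 2 → ∀ p r, ‖leadMat ω' z p r‖ ≤ 2 * H := by
    intro K' ω' h p r
    exact entry_growth_le ω'.1 (centres ω') (lead ω' p) (lead ω' r) E hη hH
      (hlead2 ω' h p r) (hlead2 ω' h p p) (hlead2 ω' h r r)
  have hr1 : FE.rho ω z' ≤ (c / 2) ^ 2 := hrho.trans hc₁le
  have hL := hlead3 ω hr1
  -- star entries
  have hdev : dev ω z' ≤ CK * c₁ :=
    (hCK' n ω hω E hE (H * η) hHη0 hHη).2.trans (mul_le_mul_of_nonneg_left hrho hCK0.le)
  have hstar1 : ∀ x y, ‖starMat ω z' x y - H520.Kz d z' m K x y‖ ≤ c / 2 := by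
    intro x y
    have h1 := entry_le_of_min (F := fun x y => starMat ω z' x y - H520.Kz d z' m K x y)
      (by linarith) (hdev.trans hCKc) x y
    exact (sq_le_sq₀ (norm_nonneg _) (by positivity)).1 h1
  have hcinv : 1 ≤ c⁻¹ := one_le_inv₀ hc0 |>.2 hc1
  have h2cinv : 2 / c = c⁻¹ + c⁻¹ := by ring
  have hstar2 : ∀ x y, ‖starMat ω z' x y‖ ≤ 2 / c := by
    intro x y
    have h1 := hstar1 x y
    have h2 := norm_Kz_le (K := K) (d := d) hc0 hz'.le hd hmi hm1 x y
    calc ‖starMat ω z' x y‖ = ‖(starMat ω z' x y - H520.Kz d z' m K x y) +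
          H520.Kz d z' m K x y‖ := by rw [sub_add_cancel]
      _ ≤ c / 2 + c⁻¹ := (norm_add_le _ _).trans (add_le_add h1 h2)
      _ ≤ 2 / c := by linarith
  have hstar3 : ∀ x y, ‖starMat ω z x y‖ ≤ 2 / c * H := by
    intro x y
    exact entry_growth_le ω.1 ∅ (pos ω x) (pos ω y) E hη hH
      (hstar2 x y) (hstar2 x x) (hstar2 y y)
  -- one star
  have hr2 : ∀ j, FE.rho (sub1 ω j) z' ≤ (c / 2) ^ 2 := by
    intro j
    have h1 := (hC1' n (sub1 ω j) (sub1_mem hω j) E hE (H * η) hHη0 hHη).1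
    calc FE.rho (sub1 ω j) z' ≤ C1 * dev (sub1 ω j) z' := h1
      _ ≤ C1 * (CK * c₁) := by
          refine mul_le_mul_of_nonneg_left ?_ hC10.le
          exact (dev_sub1_le ω j z').trans hdev
      _ = (c / 2) ^ 2 := hCCc
  have hS := fun j => hlead3 (sub1 ω j) (hr2 j)
  have him : ∀ j p, c / 2 ≤ H * (leadMat (sub1 ω j) z p p).im := by
    intro j p
    have h1 := hlead (sub1 ω j) (hr2 j) p p
    rw [if_pos rfl] at h1
    have h2 : c / 2 ≤ (leadMat (sub1 ω j) z' p p).im := by
      have h3 := (Complex.abs_im_le_norm (leadMat (sub1 ω j) z' p p - m)).trans h1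
      rw [Complex.sub_im] at h3
      have h4 := neg_abs_le ((leadMat (sub1 ω j) z' p p).im - m.im)
      linarith
    exact h2.trans (im_growth (sub1 ω j).1 (centres (sub1 ω j)) (lead (sub1 ω j) p) E hη hH).2
  have him' : ∀ j p, 1 ≤ 2 / c * H * (leadMat (sub1 ω j) z p p).im := by
    intro j p
    have h1 := him j p
    have h2 : 1 = 2 / c * (c / 2) := by field_simp
    calc (1 : ℝ) = 2 / c * (c / 2) := h2
      _ ≤ 2 / c * (H * (leadMat (sub1 ω j) z p p).im) := mul_le_mul_of_nonneg_left h1 h2c.le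
      _ = _ := by ring
  have hCH : ∀ {x t : ℝ}, x ≤ t * H → t ≤ C → x ≤ C * H := fun hx ht =>
    hx.trans (mul_le_mul_of_nonneg_right ht hH0.le)
  have hZH : Z ≤ Z * H := by nlinarith
  refine ⟨?_, ?_, ?_, ?_, ?_, ?_, ?_⟩
  · intro p r
    exact hCH (hL p r) (by rw [hC]; linarith)
  · intro x y
    exact hCH (hstar3 x y) (by rw [hC]; linarith)
  · intro i j
    have h1 := centre_inv_le hω hz hL i j
    refine hCH (t := Z + 2 * (d : ℝ) ^ 2) (h1.trans ?_) (by rw [hC]; linarith)
    linarith [hzn, hZH]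
  · intro j
    have h1 := centre_inv_le (sub1_mem hω j) hz (hS j) 0 0
    rw [centre_sub1_inv] at h1
    refine hCH (t := Z + 2 * (d : ℝ) ^ 2) (h1.trans ?_) (by rw [hC]; linarith)
    linarith [hzn, hZH]
  · intro j p r
    exact hCH (hS j p r) (by rw [hC]; linarith)
  · intro j p
    have h1 := him j p
    have h2 := (le_abs_self _).trans (Complex.abs_im_le_norm (leadMat (sub1 ω j) z p p))
    refine hCH (t := 2 / c) ?_ (by rw [hC]; linarith)
    rw [norm_inv]
    have h3 : c / 2 ≤ H * ‖leadMat (sub1 ω j) z p p‖ :=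
      h1.trans (mul_le_mul_of_nonneg_left h2 hH0.le)
    have h4 : 0 < ‖leadMat (sub1 ω j) z p p‖ := by
      by_contra hcon
      push Not at hcon
      have : H * ‖leadMat (sub1 ω j) z p p‖ ≤ 0 := mul_nonpos_of_nonneg_of_nonpos hH0.le hcon
      linarith
    rw [inv_le_comm₀ h4 (by positivity)]
    have h5 : (2 / c * H)⁻¹ = c / 2 / H := by
      field_simp
    rw [h5, div_le_iff₀ hH0]
    linarith
  · intro j p
    have h1 := him' j p
    have h2 : 0 ≤ (leadMat (sub1 ω j) z p p).im := by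
      have := him j p
      by_contra hcon
      push Not at hcon
      have : H * (leadMat (sub1 ω j) z p p).im < 0 := mul_neg_of_pos_of_neg hH0 hcon
      linarith
    refine h1.trans ?_
    refine mul_le_mul_of_nonneg_right ?_ h2
    exact mul_le_mul_of_nonneg_right (by rw [hC]; linarith) hH0.le

end

end Vale.Agent.P156.H574
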