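import Vale.Agent.P156.FE.Spec
import Vale.Agent.P156.H490.Schur
import Vale.Agent.P156.H613.Range
import Vale.Agent.P156.H520.Star

/-! # P156, fixed energy upgrade, block FE3: decoupling -/

open MeasureTheory Filter Topology Matrix Finset

namespace Vale.Agent.P156.H574

open Vale.Agent.P156 Vale.Agent.P156.FE

noncomputable section

variable {n d K : ℕ}

theorem cut_unit (G : SimpleGraph (Fin n)) (D : Finset (Fin n)) {z : ℂ} (hz : 0 < z.im) :
    IsUnit (cutMat (adj G) D z).det :=
  _root_.P156.H613.cutMat_isUnit (_root_.P156.H613.adj_isSymm G) D hz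

theorem sub1_mem {ω : SimpleGraph (Fin n) × StarPos n d K} (hω : ω ∈ ZZs n d K) (j : Fin K) :
    sub1 ω j ∈ ZZs n d 1 := by
  have h := H490.mem_ZZs.1 hω
  have hw := H490.mem_WW.1 h.1
  refine H490.mem_ZZs.2 ⟨H490.mem_WW.2 ⟨hw.1, fun _ => hw.2 j⟩, ?_, ?_, ?_⟩
  · intro a b _
    exact Subsingleton.elim a b
  · rintro ⟨a, p⟩ ⟨b, r⟩ hpr
    have h2 : (j, p) = (j, r) := h.2.2.1 (a₁ := (j, p)) (a₂ := (j, r)) hpr
    have : p = r := congrArg Prod.snd h2
    rw [this, Subsingleton.elim a b]
  · intro a p b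
    exact h.2.2.2 j p j

theorem starMat_symm (ω : SimpleGraph (Fin n) × StarPos n d K) (z : ℂ)
    (x y : Fin K × Option (Fin d)) : starMat ω z x y = starMat ω z y x := by
  have h := H520.res_symm ω.1 ∅ z
  have := congrFun (congrFun h (pos ω y)) (pos ω x)
  exact this

theorem starMat_sub1 (ω : SimpleGraph (Fin n) × StarPos n d K) (z : ℂ) (j : Fin K) (i k : Fin 1)
    (x y : Option (Fin d)) : starMat (sub1 ω j) z (i, x) (k, y) = starMat ω z (j, x) (j, y) := rfl

/-- the deletion formula for one star -/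
theorem leadMat_sub1 {ω : SimpleGraph (Fin n) × StarPos n d K} (hω : ω ∈ ZZs n d K) {z : ℂ}
    (hz : 0 < z.im) (k : Fin K) (p r : Fin d) :
    leadMat (sub1 ω k) z (0, p) (0, r) = starMat ω z (k, some p) (k, some r) -
      starMat ω z (k, some p) (k, none) *
        ((starMat ω z (k, none) (k, none))⁻¹ * starMat ω z (k, none) (k, some r)) := by
  rw [H490.leadMat_eq (sub1_mem hω k) (cut_unit _ _ hz) (cut_unit _ _ hz)]
  have h1 : (centreMat (sub1 ω k) z)⁻¹ 0 0 = (starMat ω z (k, none) (k, none))⁻¹ := by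
    rw [Matrix.inv_def, Matrix.det_fin_one, Matrix.adjugate_fin_one]
    simp only [Matrix.smul_apply, Matrix.one_apply_eq, smul_eq_mul, mul_one, Ring.inverse_eq_inv']
    rfl
  simp only [Fin.sum_univ_one, h1]
  rfl

/-- entries of the inverse of the centre matrix at a decoupled centre -/
theorem centre_inv_entries {ω : SimpleGraph (Fin n) × StarPos n d K} (hω : ω ∈ ZZs n d K) {z : ℂ}
    (hz : 0 < z.im) {B t : ℝ} (hB : 1 ≤ B) (ht : 0 ≤ t)
    (hC : ∀ i j, ‖(centreMat ω z)⁻¹ i j‖ ≤ B) (k : Fin K)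
    (hk : ‖(starMat ω z (k, none) (k, none))⁻¹‖ ≤ B)
    (hdec : ∀ j ≠ k, ‖starMat ω z (k, none) (j, none)‖ ≤ t) :
    (∀ j ≠ k, ‖(centreMat ω z)⁻¹ k j‖ ≤ K * (B * B * t)) ∧
    ‖(centreMat ω z)⁻¹ k k - (starMat ω z (k, none) (k, none))⁻¹‖ ≤ K * (B * B * t) := by
  classical
  have hu : IsUnit (centreMat ω z).det :=
    H490.isUnit_centreMat hω (cut_unit _ _ hz) (cut_unit _ _ hz)
  set Q := (centreMat ω z)⁻¹ with hQ
  set g := starMat ω z (k, none) (k, none) with hg
  have hMQ : centreMat ω z * Q = 1 := Matrix.mul_nonsing_inv _ hu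
  have hB0 : (0 : ℝ) ≤ B := by linarith
  -- `g ≠ 0`
  have hu1 : IsUnit (centreMat (sub1 ω k) z).det :=
    H490.isUnit_centreMat (sub1_mem hω k) (cut_unit _ _ hz) (cut_unit _ _ hz)
  have hg0 : g ≠ 0 := by
    have := hu1.ne_zero
    rw [Matrix.det_fin_one] at this
    exact this
  have hrow : ∀ j, g * Q k j + ∑ l ∈ univ.erase k, starMat ω z (k, none) (l, none) * Q l j =
      if k = j then 1 else 0 := by
    intro j
    have h1 := congrFun (congrFun hMQ k) j
    rw [Matrix.mul_apply, Matrix.one_apply] at h1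
    rw [← h1, ← Finset.add_sum_erase _ _ (Finset.mem_univ k)]
    rfl
  have hsum : ∀ j, ‖∑ l ∈ univ.erase k, starMat ω z (k, none) (l, none) * Q l j‖ ≤ K * (t * B) := by
    intro j
    refine (norm_sum_le _ _).trans ?_
    calc ∑ l ∈ univ.erase k, ‖starMat ω z (k, none) (l, none) * Q l j‖
        ≤ ∑ l ∈ univ.erase k, t * B := by
          refine Finset.sum_le_sum fun l hl => ?_
          rw [norm_mul]
          exact mul_le_mul (hdec l (Finset.ne_of_mem_erase hl)) (hC l j) (norm_nonneg _) ht
      _ = ((univ.erase k).card : ℝ) * (t * B) := by rw [Finset.sum_const, nsmul_eq_mul]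
      _ ≤ K * (t * B) := by
          have : ((univ.erase k).card : ℝ) ≤ K := by
            have h := Finset.card_erase_le (s := (univ : Finset (Fin K))) (a := k)
            rw [Finset.card_univ, Fintype.card_fin] at h
            exact_mod_cast h
          have htB : 0 ≤ t * B := mul_nonneg ht hB0
          exact mul_le_mul_of_nonneg_right this htB
  constructor
  · intro j hj
    have h1 := hrow j
    rw [if_neg (Ne.symm hj)] at h1
    have h2 : Q k j = -(g⁻¹ * ∑ l ∈ univ.erase k, starMat ω z (k, none) (l, none) * Q l j) := by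
      have h3 : g * Q k j = -∑ l ∈ univ.erase k, starMat ω z (k, none) (l, none) * Q l j := by
        linear_combination h1
      have h4 : Q k j = g⁻¹ * (g * Q k j) := by field_simp
      rw [h4, h3]
      ring
    rw [h2, norm_neg, norm_mul]
    calc ‖g⁻¹‖ * ‖∑ l ∈ univ.erase k, starMat ω z (k, none) (l, none) * Q l j‖
        ≤ B * (K * (t * B)) := mul_le_mul hk (hsum j) (norm_nonneg _) hB0
      _ = K * (B * B * t) := by ring
  · have h1 := hrow k
    rw [if_pos rfl] at h1
    have h2 : Q k k - g⁻¹ =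
        -(g⁻¹ * ∑ l ∈ univ.erase k, starMat ω z (k, none) (l, none) * Q l k) := by
      have h3 : g * Q k k = 1 - ∑ l ∈ univ.erase k, starMat ω z (k, none) (l, none) * Q l k := by
        linear_combination h1
      have h4 : Q k k = g⁻¹ * (g * Q k k) := by field_simp
      rw [h4, h3]
      ring
    rw [h2, norm_neg, norm_mul]
    calc ‖g⁻¹‖ * ‖∑ l ∈ univ.erase k, starMat ω z (k, none) (l, none) * Q l k‖
        ≤ B * (K * (t * B)) := mul_le_mul hk (hsum k) (norm_nonneg _) hB0
      _ = K * (B * B * t) := by ring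

/-- **FE3**: decoupling. -/
theorem specDec (d : ℕ) : SpecDec d := by
  intro K
  refine ⟨2 * (K : ℝ) ^ 3 + 2, 4, by have : (0 : ℝ) ≤ (K : ℝ) ^ 3 := by positivity
                                     linarith, ?_⟩
  intro n ω hω z hz B t hB ht hS hC k hk hdec
  classical
  have hB0 : (0 : ℝ) ≤ B := by linarith
  have hKpos : (1 : ℝ) ≤ K := by
    have : 0 < K := Fin.pos k
    exact_mod_cast this
  obtain ⟨hQ1, hQ2⟩ := centre_inv_entries hω hz hB ht hC k hk (fun j hj => hdec none none j hj)
  set Q := (centreMat ω z)⁻¹ with hQ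
  have hB2 : 1 ≤ B ^ 2 := one_le_pow₀ hB
  have hdec' : ∀ x y, ∀ j ≠ k, ‖starMat ω z (j, y) (k, x)‖ ≤ t := by
    intro x y j hj
    rw [starMat_symm]
    exact hdec x y j hj
  have hBt4 : B * B * t ≤ B ^ 4 * t := by
    have : B * B ≤ B ^ 4 := by
      calc B * B = B ^ 2 * 1 := by ring
        _ ≤ B ^ 2 * B ^ 2 := by gcongr
        _ = B ^ 4 := by ring
    exact mul_le_mul_of_nonneg_right this ht
  have hB4t : 0 ≤ B ^ 4 * t := by positivity
  constructor
  · intro p r
    rw [H490.leadMat_eq hω (cut_unit _ _ hz) (cut_unit _ _ hz), leadMat_sub1 hω hz]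
    set X : Fin K → ℂ := fun j => starMat ω z (k, some p) (j, none) with hX
    set Y : Fin K → ℂ := fun j => starMat ω z (j, none) (k, some r) with hY
    set g := starMat ω z (k, none) (k, none) with hg
    have e1 : starMat ω z (k, some p) (k, some r) - ∑ j, ∑ l, X j * (Q j l * Y l) -
        (starMat ω z (k, some p) (k, some r) - X k * (g⁻¹ * Y k)) =
        -∑ j, ∑ l, X j * ((Q j l - if j = k ∧ l = k then g⁻¹ else 0) * Y l) := by
      have e2 : X k * (g⁻¹ * Y k) = ∑ j, ∑ l, X j * ((if j = k ∧ l = k then g⁻¹ else 0) * Y l) := by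
        rw [Finset.sum_eq_single k]
        · rw [Finset.sum_eq_single k]
          · simp
          · intro l _ hl
            simp [hl]
          · simp
        · intro j _ hj
          simp [hj]
        · simp
      rw [e2]
      have e3 : ∑ j, ∑ l, X j * ((Q j l - if j = k ∧ l = k then g⁻¹ else 0) * Y l) =
          ∑ j, ∑ l, X j * (Q j l * Y l) -
          ∑ j, ∑ l, X j * ((if j = k ∧ l = k then g⁻¹ else 0) * Y l) := by
        rw [← Finset.sum_sub_distrib]
        refine Finset.sum_congr rfl fun j _ => ?_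
        rw [← Finset.sum_sub_distrib]
        refine Finset.sum_congr rfl fun l _ => ?_
        ring
      rw [e3]
      ring
    have e4 : ‖∑ j, ∑ l, X j * ((Q j l - if j = k ∧ l = k then g⁻¹ else 0) * Y l)‖ ≤
        ∑ _j : Fin K, ∑ _l : Fin K, K * (B ^ 4 * t) := by
      refine (norm_sum_le _ _).trans (Finset.sum_le_sum fun j _ => ?_)
      refine (norm_sum_le _ _).trans (Finset.sum_le_sum fun l _ => ?_)
      rw [norm_mul, norm_mul]
      have hXB : ‖X j‖ ≤ B := hS _ _
      have hYB : ‖Y l‖ ≤ B := hS _ _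
      have hgoal : B * (B * t) ≤ K * (B ^ 4 * t) := by
        calc B * (B * t) = 1 * (B * B * t) := by ring
          _ ≤ K * (B ^ 4 * t) := mul_le_mul hKpos hBt4 (by positivity) (by linarith)
      by_cases hj : j = k
      · by_cases hl : l = k
        · subst hj
          subst hl
          rw [if_pos ⟨rfl, rfl⟩]
          calc ‖X l‖ * (‖Q l l - g⁻¹‖ * ‖Y l‖) ≤ B * (K * (B * B * t) * B) := by
                gcongr
            _ = K * (B ^ 4 * t) := by ring
        · have hYt : ‖Y l‖ ≤ t := hdec' _ _ l hl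
          rw [if_neg (by tauto), sub_zero]
          calc ‖X j‖ * (‖Q j l‖ * ‖Y l‖) ≤ B * (B * t) := by
                gcongr
                exact hC j l
            _ ≤ _ := hgoal
      · have hXt : ‖X j‖ ≤ t := hdec _ _ j hj
        rw [if_neg (by tauto), sub_zero]
        calc ‖X j‖ * (‖Q j l‖ * ‖Y l‖) ≤ t * (B * B) := by
              gcongr
              exact hC j l
          _ = B * (B * t) := by ring
          _ ≤ _ := hgoal
    have e5 : ∑ _j : Fin K, ∑ _l : Fin K, (K : ℝ) * (B ^ 4 * t) = (K : ℝ) ^ 3 * (B ^ 4 * t) := by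
      simp only [Finset.sum_const, Finset.card_univ, Fintype.card_fin, nsmul_eq_mul]
      ring
    have e6 : starMat ω z (k, some p) (k, some r) -
        ∑ j, ∑ l, starMat ω z (k, some p) (j, none) * (Q j l *
          starMat ω z (l, none) (k, some r)) -
        (starMat ω z (k, some p) (k, some r) - starMat ω z (k, some p) (k, none) *
          (g⁻¹ * starMat ω z (k, none) (k, some r))) =
        -∑ j, ∑ l, X j * ((Q j l - if j = k ∧ l = k then g⁻¹ else 0) * Y l) := e1
    rw [e6, norm_neg]
    refine e4.trans ?_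
    rw [e5]
    have : 0 ≤ (K : ℝ) ^ 3 * (B ^ 4 * t) := by positivity
    nlinarith
  · intro p j hj r
    rw [H490.leadMat_eq hω (cut_unit _ _ hz) (cut_unit _ _ hz)]
    set X : Fin K → ℂ := fun i => starMat ω z (k, some p) (i, none) with hX
    set Y : Fin K → ℂ := fun i => starMat ω z (i, none) (j, some r) with hY
    have e4 : ‖∑ i, ∑ l, X i * (Q i l * Y l)‖ ≤ ∑ _j : Fin K, ∑ _l : Fin K, K * (B ^ 4 * t) := by
      refine (norm_sum_le _ _).trans (Finset.sum_le_sum fun i _ => ?_)
      refine (norm_sum_le _ _).trans (Finset.sum_le_sum fun l _ => ?_)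
      rw [norm_mul, norm_mul]
      have hXB : ‖X i‖ ≤ B := hS _ _
      have hYB : ‖Y l‖ ≤ B := hS _ _
      have hgoal : B * (B * t) ≤ K * (B ^ 4 * t) := by
        calc B * (B * t) = 1 * (B * B * t) := by ring
          _ ≤ K * (B ^ 4 * t) := mul_le_mul hKpos hBt4 (by positivity) (by linarith)
      by_cases hi : i = k
      · by_cases hl : l = k
        · have hYt : ‖Y l‖ ≤ t := by
            have := hdec none (some r) j hj
            rw [← hl] at this
            exact this
          calc ‖X i‖ * (‖Q i l‖ * ‖Y l‖) ≤ B * (B * t) := by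
                gcongr
                exact hC i l
            _ ≤ _ := hgoal
        · have hQt : ‖Q i l‖ ≤ K * (B * B * t) := by
            rw [hi]
            exact hQ1 l hl
          calc ‖X i‖ * (‖Q i l‖ * ‖Y l‖) ≤ B * (K * (B * B * t) * B) := by
                gcongr
            _ = K * (B ^ 4 * t) := by ring
      · have hXt : ‖X i‖ ≤ t := hdec _ _ i hi
        calc ‖X i‖ * (‖Q i l‖ * ‖Y l‖) ≤ t * (B * B) := by
              gcongr
              exact hC i l
          _ = B * (B * t) := by ring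
          _ ≤ _ := hgoal
    have e5 : ∑ _j : Fin K, ∑ _l : Fin K, (K : ℝ) * (B ^ 4 * t) = (K : ℝ) ^ 3 * (B ^ 4 * t) := by
      simp only [Finset.sum_const, Finset.card_univ, Fintype.card_fin, nsmul_eq_mul]
      ring
    have e6 : ‖starMat ω z (k, some p) (j, some r)‖ ≤ t := hdec _ _ j hj
    have e7 : ‖starMat ω z (k, some p) (j, some r) - ∑ i, ∑ l, X i * (Q i l * Y l)‖ ≤
        t + (K : ℝ) ^ 3 * (B ^ 4 * t) := by
      refine (norm_sub_le _ _).trans (add_le_add e6 ?_)
      rw [← e5]
      exact e4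
    refine e7.trans ?_
    have h1 : t ≤ B ^ 4 * t := by
      have h4 : 1 ≤ B ^ 4 := one_le_pow₀ hB
      nlinarith
    have h2 : 0 ≤ (K : ℝ) ^ 3 * (B ^ 4 * t) := by positivity
    nlinarith

end

end Vale.Agent.P156.H574
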