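import Vale.Agent.P156.R2.Defs

/-!
P156, part A: the Cayley transform of a real symmetric matrix.
-/

set_option linter.unusedSectionVars false

namespace Vale.Agent.P156.A

open Matrix Complex
open scoped ComplexConjugate ComplexOrder

variable {ι κ : Type*} [Fintype ι] [DecidableEq ι] [Fintype κ] [DecidableEq κ]

/-- a real matrix seen as a complex one. -/
noncomputable def toC (R : Matrix ι κ ℝ) : Matrix ι κ ℂ := R.map (fun x => (x : ℂ))

/-- the inverse Cayley transform. -/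
noncomputable def uncay (m : ℂ) (S : Matrix ι ι ℂ) : Matrix ι ι ℂ :=
  (m • (1 : Matrix ι ι ℂ) - (conj m) • S) * (1 - S)⁻¹

/-- the matrices that come from a real symmetric one: Hermitian and symmetric. -/
def RealSymm (R : Matrix ι ι ℂ) : Prop := Rᴴ = R ∧ Rᵀ = R

lemma toC_apply (R : Matrix ι κ ℝ) (i : ι) (j : κ) : toC R i j = (R i j : ℂ) := rfl

lemma realSymm_toC {R : Matrix ι ι ℝ} (hR : R.IsSymm) : RealSymm (toC R) := by
  refine ⟨?_, ?_⟩
  · ext i j
    rw [conjTranspose_apply, toC_apply, toC_apply, ← hR.apply i j]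
    simp
  · ext i j
    rw [transpose_apply, toC_apply, toC_apply, hR.apply i j]

lemma RealSymm.conj_eq {R : Matrix ι ι ℂ} (hR : RealSymm R) (i j : ι) :
    conj (R i j) = R i j := by
  have h1 := congrFun (congrFun hR.1 j) i
  have h2 := congrFun (congrFun hR.2 j) i
  rw [conjTranspose_apply] at h1
  rw [transpose_apply] at h2
  rw [← h2] at h1
  exact h1

lemma RealSymm.symm_apply {R : Matrix ι ι ℂ} (hR : RealSymm R) (i j : ι) :
    R j i = R i j := by
  have h2 := congrFun (congrFun hR.2 i) j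
  rwa [transpose_apply] at h2

lemma RealSymm.exists_real {R : Matrix ι ι ℂ} (hR : RealSymm R) :
    ∃ R0 : Matrix ι ι ℝ, R0.IsSymm ∧ R = toC R0 := by
  refine ⟨R.map Complex.re, ?_, ?_⟩
  · ext i j
    rw [transpose_apply, map_apply, map_apply, hR.symm_apply]
  · ext i j
    rw [toC_apply, map_apply]
    exact (Complex.conj_eq_iff_re.mp (hR.conj_eq i j)).symm

/-- a real number is the value of the quadratic form of a Hermitian matrix. -/
lemma im_quad_eq_zero {R : Matrix ι ι ℂ} (hR : Rᴴ = R) (x : ι → ℂ) :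
    (star x ⬝ᵥ R *ᵥ x).im = 0 := by
  have h : star (star x ⬝ᵥ R *ᵥ x) = star x ⬝ᵥ R *ᵥ x := by
    rw [← star_dotProduct_star, star_star, star_mulVec, hR, dotProduct_mulVec, dotProduct_comm]
  exact Complex.conj_eq_iff_im.mp h

lemma im_star_dot_self (x : ι → ℂ) : (star x ⬝ᵥ x).im = 0 := by
  have := im_quad_eq_zero (R := (1 : Matrix ι ι ℂ)) (by simp) x
  simpa using this

/-- if `Im x^* M x ≠ 0` for all `x ≠ 0` then `M` is invertible. -/
lemma isUnit_det_of_im {M : Matrix ι ι ℂ}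
    (h : ∀ x : ι → ℂ, M *ᵥ x = 0 → x = 0) : IsUnit M.det := by
  rw [isUnit_iff_ne_zero]
  intro hdet
  obtain ⟨v, hv, hMv⟩ := Matrix.exists_mulVec_eq_zero_iff.mpr hdet
  exact hv (h v hMv)

lemma star_dot_self_re_pos {x : ι → ℂ} (hx : x ≠ 0) : 0 < (star x ⬝ᵥ x).re := by
  have h1 : 0 < star x ⬝ᵥ x := Matrix.dotProduct_star_self_pos_iff.mpr hx
  exact (Complex.lt_def.mp h1).1

/-- A0: `R - c` is invertible for `R` Hermitian and `c` not real. -/
lemma isUnit_sub_smul {R : Matrix ι ι ℂ} (hR : Rᴴ = R) {c : ℂ} (hc : c.im ≠ 0) :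
    IsUnit (R - c • (1 : Matrix ι ι ℂ)).det := by
  apply isUnit_det_of_im
  intro x hx
  by_contra hx0
  rw [sub_mulVec, smul_mulVec, one_mulVec, sub_eq_zero] at hx
  have h1 := im_quad_eq_zero hR x
  rw [hx, dotProduct_smul, smul_eq_mul, Complex.mul_im, im_star_dot_self, mul_zero, zero_add] at h1
  rcases mul_eq_zero.mp h1 with h | h
  · exact hc h
  · exact (star_dot_self_re_pos hx0).ne' h

/-- A0 for complex symmetric matrices with nonnegative imaginary part. -/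
lemma isUnit_sub_smul_of_im_nonneg {R : Matrix ι ι ℂ}
    (hR : ∀ x : ι → ℂ, 0 ≤ (star x ⬝ᵥ R *ᵥ x).im) {c : ℂ} (hc : c.im < 0) :
    IsUnit (R - c • (1 : Matrix ι ι ℂ)).det := by
  apply isUnit_det_of_im
  intro x hx
  by_contra hx0
  rw [sub_mulVec, smul_mulVec, one_mulVec, sub_eq_zero] at hx
  have h1 := hR x
  rw [hx, dotProduct_smul, smul_eq_mul, Complex.mul_im, im_star_dot_self, mul_zero, zero_add] at h1
  have h2 := star_dot_self_re_pos hx0
  nlinarith [mul_pos (neg_pos.mpr hc) h2]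

lemma sub_mul_sub_comm' (R : Matrix ι ι ℂ) (a b : ℂ) :
    (R - a • (1 : Matrix ι ι ℂ)) * (R - b • (1 : Matrix ι ι ℂ)) =
      (R - b • (1 : Matrix ι ι ℂ)) * (R - a • (1 : Matrix ι ι ℂ)) := by
  simp only [sub_mul, mul_sub, smul_mul_assoc, mul_smul_comm, mul_one, one_mul, smul_sub, smul_smul,
    mul_comm a b]
  abel

lemma sub_mul_inv_comm {R : Matrix ι ι ℂ} {a b : ℂ}
    (hb : IsUnit (R - b • (1 : Matrix ι ι ℂ)).det) :
    (R - a • (1 : Matrix ι ι ℂ)) * (R - b • (1 : Matrix ι ι ℂ))⁻¹ =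
      (R - b • (1 : Matrix ι ι ℂ))⁻¹ * (R - a • (1 : Matrix ι ι ℂ)) := by
  have h1 : (R - b • (1 : Matrix ι ι ℂ))⁻¹ * ((R - a • (1 : Matrix ι ι ℂ)) *
      (R - b • (1 : Matrix ι ι ℂ))) * (R - b • (1 : Matrix ι ι ℂ))⁻¹
      = (R - b • (1 : Matrix ι ι ℂ))⁻¹ * (R - a • (1 : Matrix ι ι ℂ)) := by
    rw [mul_assoc, mul_assoc, mul_nonsing_inv _ hb, mul_one]
  rw [← h1, sub_mul_sub_comm', ← mul_assoc, nonsing_inv_mul _ hb, one_mul]

section herm

variable {R : Matrix ι ι ℂ} {m : ℂ}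

lemma unit_conj (hR : Rᴴ = R) (hm : m.im ≠ 0) :
    IsUnit (R - (conj m) • (1 : Matrix ι ι ℂ)).det :=
  isUnit_sub_smul hR (by rw [Complex.conj_im]; exact neg_ne_zero.mpr hm)

lemma cay_eq' (hR : Rᴴ = R) (hm : m.im ≠ 0) :
    cay m R = (R - (conj m) • (1 : Matrix ι ι ℂ))⁻¹ * (R - m • (1 : Matrix ι ι ℂ)) :=
  sub_mul_inv_comm (unit_conj hR hm)

/-- the defining relation. -/
lemma cay_mul (hR : Rᴴ = R) (hm : m.im ≠ 0) :
    cay m R * (R - (conj m) • (1 : Matrix ι ι ℂ)) = R - m • (1 : Matrix ι ι ℂ) := by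
  rw [cay, mul_assoc, nonsing_inv_mul _ (unit_conj hR hm), mul_one]

lemma eq_cay_of_mul (hR : Rᴴ = R) (hm : m.im ≠ 0) {S : Matrix ι ι ℂ}
    (h : S * (R - (conj m) • (1 : Matrix ι ι ℂ)) = R - m • (1 : Matrix ι ι ℂ)) :
    cay m R = S := by
  rw [cay, ← h, mul_assoc, mul_nonsing_inv _ (unit_conj hR hm), mul_one]

/-- A0: the Cayley transform of a Hermitian matrix is unitary. -/
lemma cay_mem_unitary (hR : Rᴴ = R) (hm : m.im ≠ 0) : cay m R ∈ unitaryGroup ι ℂ := by
  rw [mem_unitaryGroup_iff']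
  have h1 : star (cay m R) =
      (R - m • (1 : Matrix ι ι ℂ))⁻¹ * (R - (conj m) • (1 : Matrix ι ι ℂ)) := by
    rw [cay, star_eq_conjTranspose, conjTranspose_mul, conjTranspose_nonsing_inv,
      conjTranspose_sub, conjTranspose_sub, conjTranspose_smul, conjTranspose_smul,
      conjTranspose_one, hR]
    simp
  rw [h1, cay_eq' hR hm, mul_assoc, ← mul_assoc (R - (conj m) • (1 : Matrix ι ι ℂ)),
    mul_nonsing_inv _ (unit_conj hR hm), one_mul, nonsing_inv_mul _ (isUnit_sub_smul hR hm)]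

lemma cay_transpose (hR : RealSymm R) (hm : m.im ≠ 0) : (cay m R)ᵀ = cay m R := by
  rw [cay_eq' hR.1 hm, transpose_mul, transpose_nonsing_inv, transpose_sub, transpose_sub,
    transpose_smul, transpose_smul, transpose_one, hR.2, ← cay_eq' hR.1 hm]
  rfl

lemma mul_inv_sub {b : ℂ} (hb : IsUnit (R - b • (1 : Matrix ι ι ℂ)).det) :
    R * (R - b • (1 : Matrix ι ι ℂ))⁻¹ = 1 + b • (R - b • (1 : Matrix ι ι ℂ))⁻¹ := by
  have h4 := mul_nonsing_inv _ hb
  rw [sub_mul, smul_mul_assoc, one_mul, sub_eq_iff_eq_add] at h4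
  exact h4

lemma cay_eq_one_sub (hR : Rᴴ = R) (hm : m.im ≠ 0) :
    cay m R = 1 - (m - conj m) • (R - (conj m) • (1 : Matrix ι ι ℂ))⁻¹ := by
  rw [cay, sub_mul, mul_inv_sub (unit_conj hR hm), smul_mul_assoc, one_mul, sub_smul]
  abel

lemma one_sub_cay (hR : Rᴴ = R) (hm : m.im ≠ 0) :
    1 - cay m R = (m - conj m) • (R - (conj m) • (1 : Matrix ι ι ℂ))⁻¹ := by
  rw [cay_eq_one_sub hR hm]
  abel

lemma sub_conj_ne (hm : m.im ≠ 0) : m - conj m ≠ 0 := by
  intro h
  apply hm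
  have := congrArg Complex.im h
  simp only [Complex.sub_im, Complex.conj_im, Complex.zero_im] at this
  linarith

lemma isUnit_one_sub_cay (hR : Rᴴ = R) (hm : m.im ≠ 0) : IsUnit (1 - cay m R).det := by
  rw [one_sub_cay hR hm, det_smul]
  exact ((isUnit_iff_ne_zero.mpr (sub_conj_ne hm)).pow _).mul
    ((isUnit_nonsing_inv_det_iff).mpr (unit_conj hR hm))

/-- A0: `R` is recovered from its Cayley transform. -/
lemma uncay_cay (hR : Rᴴ = R) (hm : m.im ≠ 0) : uncay m (cay m R) = R := by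
  have h1 : m • (1 : Matrix ι ι ℂ) - (conj m) • cay m R = R * (1 - cay m R) := by
    rw [one_sub_cay hR hm, mul_smul_comm, mul_inv_sub (unit_conj hR hm),
      cay_eq_one_sub hR hm]
    simp only [smul_sub, smul_add, smul_smul, sub_smul]
    rw [show (m - conj m) * conj m = conj m * m - conj m * conj m by ring, sub_smul]
    abel
  rw [uncay, h1, mul_assoc, mul_nonsing_inv _ (isUnit_one_sub_cay hR hm), mul_one]

lemma cay_injOn (hm : m.im ≠ 0) {R' : Matrix ι ι ℂ} (hR : Rᴴ = R) (hR' : R'ᴴ = R')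
    (h : cay m R = cay m R') : R = R' := by
  rw [← uncay_cay hR hm, h, uncay_cay hR' hm]

end herm

end Vale.Agent.P156.A
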