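import Vale.Agent.P156.H574.Herm
import Vale.Agent.P156.F.Clos

/-!
P156, part A: the number `mE`, equivariance of the Cayley transform, one-channel closings in the
form `closM` of part F, scattering matrices of graphs.
-/

set_option linter.unusedSectionVars false

namespace Vale.Agent.P156.A

open Matrix Complex Topology Filter
open scoped ComplexConjugate ComplexOrder

noncomputable section

section mE

variable {d : ℕ} {E : ℝ}

lemma sq_lt_of_bulk (hd : 2 ≤ d) (hE : |E| < 2 * Real.sqrt ((d : ℝ) - 1)) :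
    E ^ 2 < 4 * ((d : ℝ) - 1) := by
  have hd' : (2 : ℝ) ≤ d := by exact_mod_cast hd
  have h1 : 0 ≤ (d : ℝ) - 1 := by linarith
  have h2 := Real.sq_sqrt h1
  have h3 : |E| ^ 2 < (2 * Real.sqrt ((d : ℝ) - 1)) ^ 2 :=
    pow_lt_pow_left₀ hE (abs_nonneg _) two_ne_zero
  rw [sq_abs] at h3
  nlinarith

theorem mE_root (hd : 2 ≤ d) (hE : |E| < 2 * Real.sqrt ((d : ℝ) - 1)) :
    ((d : ℂ) - 1) * mE d E ^ 2 + E * mE d E + 1 = 0 := by
  have hd' : (2 : ℝ) ≤ d := by exact_mod_cast hd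
  have hlt := sq_lt_of_bulk hd hE
  have hs : (Real.sqrt (4 * ((d : ℝ) - 1) - E ^ 2)) ^ 2 = 4 * ((d : ℝ) - 1) - E ^ 2 :=
    Real.sq_sqrt (by linarith)
  have hs' : ((Real.sqrt (4 * ((d : ℝ) - 1) - E ^ 2) : ℝ) : ℂ) ^ 2 = 4 * ((d : ℂ) - 1) - (E : ℂ) ^ 2 := by
    rw [← Complex.ofReal_pow, hs]
    push_cast
    ring
  have hq : (d : ℂ) - 1 ≠ 0 := by
    intro h
    have : (d : ℝ) - 1 = 0 := by exact_mod_cast h
    linarith
  unfold mE
  field_simp
  linear_combination Complex.I ^ 2 * hs' + (4 * ((d : ℂ) - 1) - (E : ℂ) ^ 2) * Complex.I_sq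

theorem mE_im_pos (hd : 2 ≤ d) (hE : |E| < 2 * Real.sqrt ((d : ℝ) - 1)) : 0 < (mE d E).im := by
  have hd' : (2 : ℝ) ≤ d := by exact_mod_cast hd
  have hlt := sq_lt_of_bulk hd hE
  have hs : 0 < Real.sqrt (4 * ((d : ℝ) - 1) - E ^ 2) := Real.sqrt_pos.mpr (by linarith)
  have h1 : mE d E = ((-E / (2 * ((d : ℝ) - 1)) : ℝ) : ℂ) +
      ((Real.sqrt (4 * ((d : ℝ) - 1) - E ^ 2) / (2 * ((d : ℝ) - 1)) : ℝ) : ℂ) * Complex.I := by
    unfold mE
    push_cast
    ring
  rw [h1]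
  simp only [Complex.add_im, Complex.ofReal_im, Complex.mul_im, Complex.ofReal_re, Complex.I_im,
    Complex.I_re, mul_one, mul_zero, add_zero, zero_add]
  exact div_pos hs (by linarith)

theorem mE_root_sqrt (hd : 2 ≤ d) (hE : |E| < 2 * Real.sqrt ((d : ℝ) - 1)) :
    ((Real.sqrt ((d : ℝ) - 1) ^ 2 : ℝ) : ℂ) * mE d E ^ 2 + E * mE d E + 1 = 0 := by
  have hd' : (2 : ℝ) ≤ d := by exact_mod_cast hd
  rw [Real.sq_sqrt (by linarith)]
  push_cast
  exact mE_root hd hE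

end mE

section equi

variable {ι κ : Type*} [Fintype ι] [DecidableEq ι] [Fintype κ] [DecidableEq κ]
variable {R : Matrix ι ι ℂ} {m : ℂ}

theorem cay_submatrix (R : Matrix ι ι ℂ) (m : ℂ) (e : κ ≃ ι) :
    cay m (R.submatrix e e) = (cay m R).submatrix e e := by
  have h : ∀ c : ℂ, R.submatrix e e - c • (1 : Matrix κ κ ℂ) =
      (R - c • (1 : Matrix ι ι ℂ)).submatrix e e := by
    intro c
    ext i j
    simp [one_apply]
  rw [cay, h, h, inv_submatrix_equiv, submatrix_mul_equiv]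
  rfl

theorem cay_conj (hR : Rᴴ = R) (hm : m.im ≠ 0) {U : Matrix ι ι ℂ} (hU : U ∈ unitaryGroup ι ℂ) :
    cay m (U * R * Uᴴ) = U * cay m R * Uᴴ := by
  have hUU : Uᴴ * U = 1 := mem_unitaryGroup_iff'.mp hU
  have hUU' : U * Uᴴ = 1 := mem_unitaryGroup_iff.mp hU
  have h : ∀ c : ℂ, U * R * Uᴴ - c • (1 : Matrix ι ι ℂ) = U * (R - c • (1 : Matrix ι ι ℂ)) * Uᴴ := by
    intro c
    rw [Matrix.mul_sub, Matrix.sub_mul, Matrix.mul_smul, Matrix.mul_one, Matrix.smul_mul, hUU']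
  apply eq_cay_of_mul _ hm
  · rw [h, h]
    calc U * cay m R * Uᴴ * (U * (R - (conj m) • (1 : Matrix ι ι ℂ)) * Uᴴ)
        = U * (cay m R * ((Uᴴ * U) * (R - (conj m) • (1 : Matrix ι ι ℂ)))) * Uᴴ := by
          simp only [Matrix.mul_assoc]
      _ = U * (R - m • (1 : Matrix ι ι ℂ)) * Uᴴ := by
          rw [hUU, Matrix.one_mul, cay_mul hR hm]
  · rw [conjTranspose_mul, conjTranspose_mul, conjTranspose_conjTranspose, hR, Matrix.mul_assoc]

lemma toC_mem_unitary {O : Matrix ι ι ℝ} (hO : O ∈ orthogonalGroup ι ℝ) :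
    toC O ∈ unitaryGroup ι ℂ := by
  rw [mem_unitaryGroup_iff]
  have h1 : O * star O = 1 := (mem_orthogonalGroup_iff _ _).mp hO
  have h2 : star (toC O) = toC (star O) := by
    ext i j
    simp [toC, star_apply]
  rw [h2]
  have h3 : toC O * toC (star O) = toC (O * star O) := by
    ext i j
    simp [toC, mul_apply]
  rw [h3, h1]
  ext i j
  by_cases h : i = j
  · subst h; simp [toC]
  · simp [toC, h]

lemma toC_conjTranspose (O : Matrix ι κ ℝ) : (toC O)ᴴ = (toC O)ᵀ := by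
  ext i j
  simp [toC]

/-- equivariance under real orthogonal matrices. -/
theorem cay_orth (hR : Rᴴ = R) (hm : m.im ≠ 0) {O : Matrix ι ι ℝ}
    (hO : O ∈ orthogonalGroup ι ℝ) :
    cay m (O.map (fun x : ℝ => (x : ℂ)) * R * (O.map (fun x : ℝ => (x : ℂ)))ᵀ) =
      O.map (fun x : ℝ => (x : ℂ)) * cay m R * (O.map (fun x : ℝ => (x : ℂ)))ᵀ := by
  have h := cay_conj hR hm (toC_mem_unitary hO)
  rw [toC_conjTranspose] at h
  exact h

end equi

section fin

variable {t : ℕ} {R : Matrix (Fin (t + 1)) (Fin (t + 1)) ℂ} {m : ℂ}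

/-- `Fin t ⊕ Unit ≃ Fin (t+1)`, the last channel goes to `0`. -/
def finE (t : ℕ) : Fin t ⊕ Unit ≃ Fin (t + 1) where
  toFun := Sum.elim Fin.succ (fun _ => 0)
  invFun := Fin.cases (Sum.inr ()) Sum.inl
  left_inv := by
    rintro (i | i)
    · simp
    · simp
  right_inv := by
    intro i
    refine Fin.cases ?_ (fun j => ?_) i
    · simp
    · simp

lemma closeM_unit {κ : Type*} [Fintype κ] [DecidableEq κ] (S : Matrix (κ ⊕ Unit) (κ ⊕ Unit) ℂ)
    (C : Matrix Unit Unit ℂ) (i j : κ) :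
    closeM S C i j = S (Sum.inl i) (Sum.inl j) + S (Sum.inl i) (Sum.inr ()) *
      (C () () - S (Sum.inr ()) (Sum.inr ()))⁻¹ * S (Sum.inr ()) (Sum.inl j) := by
  have h : (C - S.toBlocks₂₂)⁻¹ () () = (C () () - S (Sum.inr ()) (Sum.inr ()))⁻¹ := by
    rw [Matrix.inv_def, adjugate_subsingleton, det_unique]
    simp [toBlocks₂₂, Ring.inverse_eq_inv']
  rw [closeM, Matrix.add_apply, mul_apply]
  simp only [Finset.univ_unique, Finset.sum_singleton, mul_apply]
  rw [show (default : Unit) = () from rfl, h]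
  rfl

lemma closeR_unit {κ : Type*} [Fintype κ] [DecidableEq κ] (S : Matrix (κ ⊕ Unit) (κ ⊕ Unit) ℂ)
    (C : Matrix Unit Unit ℂ) (i j : κ) :
    closeR S C i j = S (Sum.inl i) (Sum.inl j) - S (Sum.inl i) (Sum.inr ()) *
      (S (Sum.inr ()) (Sum.inr ()) - C () ())⁻¹ * S (Sum.inr ()) (Sum.inl j) := by
  have h : (S.toBlocks₂₂ - C)⁻¹ () () = (S (Sum.inr ()) (Sum.inr ()) - C () ())⁻¹ := by
    rw [Matrix.inv_def, adjugate_subsingleton, det_unique]
    simp [toBlocks₂₂, Ring.inverse_eq_inv']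
  rw [closeR, Matrix.sub_apply, mul_apply]
  simp only [Finset.univ_unique, Finset.sum_singleton, mul_apply]
  rw [show (default : Unit) = () from rfl, h]
  rfl

lemma isUnit_det_unit (M : Matrix Unit Unit ℂ) : IsUnit M.det ↔ M () () ≠ 0 := by
  rw [det_unique, isUnit_iff_ne_zero]

/-- compression by one channel is `closM 1`. -/
theorem cay_succ (hR : Rᴴ = R) (hm : m.im ≠ 0) :
    cay m (R.submatrix Fin.succ Fin.succ) = F.closM 1 (cay m R) := by
  have hR' : (R.submatrix (finE t) (finE t))ᴴ = R.submatrix (finE t) (finE t) := by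
    rw [conjTranspose_submatrix, hR]
  have h := cay_compress (κ := Fin t) (τ := Unit) hR' hm
  have h1 : (R.submatrix (finE t) (finE t)).toBlocks₁₁ = R.submatrix Fin.succ Fin.succ := by
    ext i j
    rfl
  rw [h1, cay_submatrix] at h
  rw [h]
  ext i j
  rw [closeM_unit, F.closM_apply, inv_one]
  rfl

lemma cay_zero_ne_one (hR : Rᴴ = R) (hm : m.im ≠ 0) : cay m R 0 0 ≠ 1 := by
  have hR' : (R.submatrix (finE t) (finE t))ᴴ = R.submatrix (finE t) (finE t) := by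
    rw [conjTranspose_submatrix, hR]
  have h := isUnit_one_sub_block (κ := Fin t) (τ := Unit) hR' hm
  rw [isUnit_det_unit, cay_submatrix] at h
  intro h0
  apply h
  rw [Matrix.sub_apply, one_apply_eq]
  change 1 - cay m R 0 0 = 0
  rw [h0, sub_self]

/-- the phase that belongs to closing with the real number `k`. -/
def nuPhase (m : ℂ) (k : ℝ) : ℂ := ((k : ℂ) - conj m) / ((k : ℂ) - m)

lemma ofReal_sub_ne {m : ℂ} (hm : m.im ≠ 0) (k : ℝ) : (k : ℂ) - m ≠ 0 := by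
  intro h
  have := congrArg Complex.im h
  simp only [Complex.sub_im, Complex.ofReal_im, zero_sub, Complex.zero_im, neg_eq_zero] at this
  exact hm this

lemma norm_nuPhase {m : ℂ} (hm : m.im ≠ 0) (k : ℝ) : ‖nuPhase m k‖ = 1 := by
  have h1 : (k : ℂ) - conj m = conj ((k : ℂ) - m) := by simp
  rw [nuPhase, norm_div, h1, Complex.norm_conj, div_self]
  exact norm_ne_zero_iff.mpr (ofReal_sub_ne hm k)

lemma cay_scalar {m : ℂ} (hm : m.im ≠ 0) (k : ℝ) :
    cay m ((k : ℂ) • (1 : Matrix Unit Unit ℂ)) () () = (nuPhase m k)⁻¹ := by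
  have hmc : (conj m).im ≠ 0 := by
    rw [Complex.conj_im]
    exact neg_ne_zero.mpr hm
  have h1 := ofReal_sub_ne hm k
  have h2 := ofReal_sub_ne hmc k
  have h3 : cay m ((k : ℂ) • (1 : Matrix Unit Unit ℂ)) =
      (((k : ℂ) - m) / ((k : ℂ) - conj m)) • (1 : Matrix Unit Unit ℂ) := by
    apply eq_cay_of_mul _ hm
    · rw [← sub_smul, ← sub_smul, smul_mul_smul_comm, Matrix.one_mul, div_mul_cancel₀ _ h2]
    · simp
  rw [h3, Matrix.smul_apply, one_apply_eq, smul_eq_mul, mul_one, nuPhase, inv_div]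

/-- closing channel `0` at the real value `k`. -/
theorem cay_close_fin (hR : Rᴴ = R) (hm : m.im ≠ 0) (k : ℝ) (hk : R 0 0 ≠ (k : ℂ)) :
    cay m (of fun i j => R i.succ j.succ - R i.succ 0 * (R 0 0 - k)⁻¹ * R 0 j.succ) =
      F.closM (nuPhase m k) (cay m R) := by
  have hR' : (R.submatrix (finE t) (finE t))ᴴ = R.submatrix (finE t) (finE t) := by
    rw [conjTranspose_submatrix, hR]
  have hK : ((k : ℂ) • (1 : Matrix Unit Unit ℂ))ᴴ = (k : ℂ) • (1 : Matrix Unit Unit ℂ) := by simp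
  have hU : IsUnit ((R.submatrix (finE t) (finE t)).toBlocks₂₂ -
      (k : ℂ) • (1 : Matrix Unit Unit ℂ)).det := by
    rw [isUnit_det_unit]
    change R 0 0 - (k : ℂ) * (1 : Matrix Unit Unit ℂ) () () ≠ 0
    rw [one_apply_eq, mul_one]
    exact sub_ne_zero.mpr hk
  have h := cay_closeR (κ := Fin t) (τ := Unit) hR' hm hK hU
  have h1 : closeR (R.submatrix (finE t) (finE t)) ((k : ℂ) • (1 : Matrix Unit Unit ℂ)) =
      of fun i j => R i.succ j.succ - R i.succ 0 * (R 0 0 - k)⁻¹ * R 0 j.succ := by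
    ext i j
    rw [closeR_unit]
    change R i.succ j.succ - R i.succ 0 * (R 0 0 - (k : ℂ) * (1 : Matrix Unit Unit ℂ) () ())⁻¹ *
      R 0 j.succ = _
    rw [one_apply_eq, mul_one]
    rfl
  rw [h1, cay_submatrix] at h
  rw [h]
  ext i j
  rw [closeM_unit, F.closM_apply, cay_scalar hm]
  rfl

lemma cay_zero_ne_phase (hR : Rᴴ = R) (hm : m.im ≠ 0) (k : ℝ) (hk : R 0 0 ≠ (k : ℂ)) :
    cay m R 0 0 ≠ (nuPhase m k)⁻¹ := by
  have hR' : (R.submatrix (finE t) (finE t))ᴴ = R.submatrix (finE t) (finE t) := by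
    rw [conjTranspose_submatrix, hR]
  have hK : ((k : ℂ) • (1 : Matrix Unit Unit ℂ))ᴴ = (k : ℂ) • (1 : Matrix Unit Unit ℂ) := by simp
  have hU : IsUnit ((R.submatrix (finE t) (finE t)).toBlocks₂₂ -
      (k : ℂ) • (1 : Matrix Unit Unit ℂ)).det := by
    rw [isUnit_det_unit]
    change R 0 0 - (k : ℂ) * (1 : Matrix Unit Unit ℂ) () () ≠ 0
    rw [one_apply_eq, mul_one]
    exact sub_ne_zero.mpr hk
  have h := isUnit_cay_sub_block (κ := Fin t) (τ := Unit) hR' hm hK hU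
  rw [isUnit_det_unit, cay_submatrix, Matrix.sub_apply, cay_scalar hm] at h
  intro h0
  apply h
  change (nuPhase m k)⁻¹ - cay m R 0 0 = 0
  rw [h0, sub_self]

end fin

section graph

variable {n d K : ℕ} {E : ℝ}

theorem SX_mem (hd : 2 ≤ d) (hE : |E| < 2 * Real.sqrt ((d : ℝ) - 1))
    (ω : SimpleGraph (Fin n) × StarPos n d K) :
    SX E ω ∈ unitaryGroup (Fin K × Fin d) ℂ ∧ (SX E ω)ᵀ = SX E ω :=
  ⟨cay_mem_unitary (leadMat_realSymm ω E).1 (mE_im_pos hd hE).ne',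
    cay_transpose (leadMat_realSymm ω E) (mE_im_pos hd hE).ne'⟩

end graph

end

end Vale.Agent.P156.A
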