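import Vale.Agent.P156.H574.Cayley

/-!
P156, part A2 and A4: attaching a new vertex, and the resolvent at the centres, seen on the
Cayley transforms.
-/

set_option linter.unusedSectionVars false

namespace Vale.Agent.P156.A

open Matrix Complex
open scoped ComplexConjugate

noncomputable section

variable {ι : Type*} [Fintype ι] [DecidableEq ι]

section root

variable {q E : ℝ} {m : ℂ}

/-- `q (m + conj m) = -E`. -/
lemma root_add (h : (q : ℂ) * m ^ 2 + E * m + 1 = 0) (hm : m.im ≠ 0) :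
    (q : ℂ) * (m + conj m) = -E := by
  have hc : (q : ℂ) * (conj m) ^ 2 + E * conj m + 1 = 0 := by
    have := congrArg conj h
    simpa using this
  have h1 : (m - conj m) * ((q : ℂ) * (m + conj m) + E) = 0 := by
    linear_combination h - hc
  rcases mul_eq_zero.mp h1 with h2 | h2
  · exact absurd h2 (sub_conj_ne hm)
  · linear_combination h2

/-- `q |m|^2 = 1`. -/
lemma root_mul (h : (q : ℂ) * m ^ 2 + E * m + 1 = 0) (hm : m.im ≠ 0) :
    (q : ℂ) * (m * conj m) = 1 := by
  linear_combination m * root_add h hm - h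

lemma root_ne (h : (q : ℂ) * m ^ 2 + E * m + 1 = 0) : m ≠ 0 := by
  rintro rfl
  simp at h

/-- `q m = 1 / conj m`. -/
lemma root_inv (h : (q : ℂ) * m ^ 2 + E * m + 1 = 0) (hm : m.im ≠ 0) :
    (conj m)⁻¹ = q * m := by
  have h1 := root_mul h hm
  have h2 : conj m ≠ 0 := by
    rw [Ne, map_eq_zero]
    exact root_ne h
  field_simp
  linear_combination -h1

end root

/-- the resolvent after attaching a new vertex `w` to the channel `w` (with strength `r`). -/
def attach (r E : ℝ) (w : ι) (T : Matrix ι ι ℂ) : Matrix ι ι ℂ :=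
  fun i j => if i = w then (if j = w then -((E : ℂ) + (r : ℂ) ^ 2 * T w w)⁻¹
      else r * ((E : ℂ) + (r : ℂ) ^ 2 * T w w)⁻¹ * T w j)
    else (if j = w then r * ((E : ℂ) + (r : ℂ) ^ 2 * T w w)⁻¹ * T i w
      else T i j - (r : ℂ) ^ 2 * ((E : ℂ) + (r : ℂ) ^ 2 * T w w)⁻¹ * T i w * T w j)

/-- the diagonal matrix with `c` at `w` and `1` elsewhere. -/
def dg (w : ι) (c : ℂ) : Matrix ι ι ℂ := diagonal (fun i => if i = w then c else 1)

lemma attach_herm {r E : ℝ} {w : ι} {T : Matrix ι ι ℂ} (hT : Tᴴ = T) :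
    (attach r E w T)ᴴ = attach r E w T := by
  have h : ∀ i j, conj (T j i) = T i j := fun i j => by
    have := congrFun (congrFun hT i) j
    rwa [conjTranspose_apply] at this
  have hi : conj (((E : ℂ) + (r : ℂ) ^ 2 * T w w)⁻¹) = ((E : ℂ) + (r : ℂ) ^ 2 * T w w)⁻¹ := by
    rw [map_inv₀, map_add, map_mul, map_pow, Complex.conj_ofReal, Complex.conj_ofReal, h w w]
  ext i j
  rw [conjTranspose_apply]
  change conj (attach r E w T j i) = attach r E w T i j
  unfold attach
  by_cases h1 : i = w <;> by_cases h2 : j = w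
  · rw [if_pos h2, if_pos h1, if_pos h1, if_pos h2, map_neg, hi]
  · rw [if_neg h2, if_pos h1, if_pos h1, if_neg h2, map_mul, map_mul, hi, Complex.conj_ofReal, h]
  · rw [if_pos h2, if_neg h1, if_neg h1, if_pos h2, map_mul, map_mul, hi, Complex.conj_ofReal, h]
  · rw [if_neg h2, if_neg h1, if_neg h1, if_neg h2, map_sub, map_mul, map_mul, map_mul, hi,
      map_pow, Complex.conj_ofReal, h, h, h]
    ring

lemma attach_symm {r E : ℝ} {w : ι} {T : Matrix ι ι ℂ} (hT : Tᵀ = T) :
    (attach r E w T)ᵀ = attach r E w T := by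
  have h : ∀ i j, T j i = T i j := fun i j => congrFun (congrFun hT i) j
  ext i j
  rw [transpose_apply]
  unfold attach
  by_cases h1 : i = w <;> by_cases h2 : j = w
  · rw [if_pos h2, if_pos h1, if_pos h1, if_pos h2]
  · rw [if_neg h2, if_pos h1, if_pos h1, if_neg h2, h w j]
  · rw [if_pos h2, if_neg h1, if_neg h1, if_pos h2, h i w]
  · rw [if_neg h2, if_neg h1, if_neg h1, if_neg h2, h i j, h w j, h i w]
    ring

/-- the key factorisation behind A2. -/
lemma attach_key {r E : ℝ} {w : ι} {T : Matrix ι ι ℂ}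
    (h0 : (E : ℂ) + (r : ℂ) ^ 2 * T w w ≠ 0) (c e : ℂ) (he : e * (r * c) = -1)
    (hc : (r : ℂ) ^ 2 * c ^ 2 + E * c + 1 = 0) :
    (T - c • (1 : Matrix ι ι ℂ)) *
        ((1 : Matrix ι ι ℂ) + vecMulVec (Pi.single w 1)
          (fun j => -r * attach r E w T w j - if j = w then 1 else 0)) =
      dg w e * (attach r E w T - c • (1 : Matrix ι ι ℂ)) := by
  have hc0 : c ≠ 0 := by
    rintro rfl
    simp at he
  have hr0 : (r : ℂ) ≠ 0 := by
    intro h
    rw [h] at he
    simp at he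
  have her : e * r = E + (r : ℂ) ^ 2 * c := by
    apply mul_left_cancel₀ hc0
    linear_combination he - hc
  set X : ℂ := ((E : ℂ) + (r : ℂ) ^ 2 * T w w)⁻¹ with hX
  have hXE : X * ((E : ℂ) + (r : ℂ) ^ 2 * T w w) = 1 := inv_mul_cancel₀ h0
  have hww : attach r E w T w w = -X := by
    unfold attach
    rw [if_pos rfl, if_pos rfl]
  have hwj : ∀ j, j ≠ w → attach r E w T w j = r * X * T w j := by
    intro j hj
    unfold attach
    rw [if_pos rfl, if_neg hj]
  have hiw : ∀ i, i ≠ w → attach r E w T i w = r * X * T i w := by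
    intro j hj
    unfold attach
    rw [if_neg hj, if_pos rfl]
  have hij : ∀ i j, i ≠ w → j ≠ w →
      attach r E w T i j = T i j - (r : ℂ) ^ 2 * X * T i w * T w j := by
    intro i j hi hj
    unfold attach
    rw [if_neg hi, if_neg hj]
  rw [Matrix.mul_add, Matrix.mul_one, mul_vecMulVec, mulVec_single_one]
  ext i j
  rw [Matrix.add_apply, vecMulVec_apply, col_apply, dg, diagonal_mul, Matrix.sub_apply,
    Matrix.sub_apply, Matrix.sub_apply, Matrix.smul_apply, Matrix.smul_apply, smul_eq_mul,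
    smul_eq_mul]
  by_cases hi : i = w
  · subst hi
    rw [if_pos rfl]
    by_cases hj : j = i
    · subst hj
      rw [hww, if_pos rfl, one_apply_eq]
      apply mul_left_cancel₀ hr0
      linear_combination (-X - c) * (-her) + hXE + hc
    · rw [hwj j hj, if_neg hj, one_apply_ne (Ne.symm hj), one_apply_eq]
      linear_combination (-(X * T i j)) * her - T i j * hXE
  · rw [if_neg hi]
    by_cases hj : j = w
    · subst hj
      rw [hiw i hi, hww, if_pos rfl, one_apply_ne hi]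
      ring
    · rw [hij i j hi hj, hwj j hj, if_neg hj, one_apply_ne hi]
      ring

/-- **A2.** Attaching a new vertex to the channel `w`: `S' = Δ S Δ`, `Δ = diag(-r m, 1, ..)`. -/
theorem cay_attach {r E : ℝ} {m : ℂ} (hroot : ((r ^ 2 : ℝ) : ℂ) * m ^ 2 + E * m + 1 = 0)
    (hm : m.im ≠ 0) {w : ι} {T : Matrix ι ι ℂ} (hT : Tᴴ = T)
    (h0 : (E : ℂ) + (r : ℂ) ^ 2 * T w w ≠ 0) :
    cay m (attach r E w T) = dg w (-r * m) * cay m T * dg w (-r * m) := by
  have hmul := root_mul hroot hm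
  have hroot' : (r : ℂ) ^ 2 * m ^ 2 + E * m + 1 = 0 := by
    rw [← hroot]; push_cast; ring
  have hrootc : (r : ℂ) ^ 2 * (conj m) ^ 2 + E * conj m + 1 = 0 := by
    have := congrArg conj hroot'
    simpa using this
  have hmul' : (r : ℂ) ^ 2 * (m * conj m) = 1 := by
    rw [← hmul]; push_cast; ring
  have hr0 : (r : ℂ) ≠ 0 := by
    intro h
    rw [h] at hmul'
    simp at hmul'
  have hm0 : m ≠ 0 := root_ne hroot
  set P : Matrix ι ι ℂ := (1 : Matrix ι ι ℂ) + vecMulVec (Pi.single w 1)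
          (fun j => -r * attach r E w T w j - if j = w then 1 else 0) with hP
  have k1 : (T - m • (1 : Matrix ι ι ℂ)) * P =
      dg w (-(r * m)⁻¹) * (attach r E w T - m • (1 : Matrix ι ι ℂ)) := by
    apply attach_key h0 m _ _ hroot'
    have : (r : ℂ) * m ≠ 0 := mul_ne_zero hr0 hm0
    rw [neg_mul, inv_mul_cancel₀ this]
  have k2 : (T - (conj m) • (1 : Matrix ι ι ℂ)) * P =
      dg w (-r * m) * (attach r E w T - (conj m) • (1 : Matrix ι ι ℂ)) := by
    apply attach_key h0 (conj m) _ _ hrootc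
    linear_combination -hmul'
  apply eq_cay_of_mul (attach_herm hT) hm
  have k3 : cay m T * ((T - (conj m) • (1 : Matrix ι ι ℂ)) * P) =
      (T - m • (1 : Matrix ι ι ℂ)) * P := by
    rw [← Matrix.mul_assoc, cay_mul hT hm]
  rw [k1, k2] at k3
  have hd : dg w (-r * m) * dg w (-(r * m)⁻¹) = (1 : Matrix ι ι ℂ) := by
    rw [dg, dg, diagonal_mul_diagonal, ← diagonal_one]
    congr 1
    ext i
    by_cases hi : i = w
    · rw [if_pos hi, if_pos hi]
      field_simp
    · rw [if_neg hi, if_neg hi, one_mul]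
  rw [Matrix.mul_assoc, Matrix.mul_assoc, k3, ← Matrix.mul_assoc, hd, Matrix.one_mul]

lemma add_mul_ne {d E : ℝ} {m : ℂ} (hm : m.im ≠ 0) (hd : d ≠ 0) : (E : ℂ) + d * m ≠ 0 := by
  intro h
  have := congrArg Complex.im h
  simp only [Complex.add_im, Complex.ofReal_im, Complex.mul_im, Complex.ofReal_re, zero_mul,
    add_zero, zero_add, Complex.zero_im] at this
  exact (mul_ne_zero hd hm) this

lemma im_md_ne {d E : ℝ} {m : ℂ} (hm : m.im ≠ 0) (hd : d ≠ 0) :
    (-1 / ((E : ℂ) + d * m)).im ≠ 0 := by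
  have h := add_mul_ne (E := E) hm hd
  have h2 : Complex.normSq ((E : ℂ) + d * m) ≠ 0 := by
    rw [Ne, Complex.normSq_eq_zero]
    exact h
  rw [neg_div, one_div, Complex.neg_im, Complex.inv_im]
  simp only [Complex.add_im, Complex.ofReal_im, Complex.mul_im, Complex.ofReal_re, zero_mul,
    add_zero, zero_add]
  rw [neg_ne_zero]
  exact div_ne_zero (neg_ne_zero.mpr (mul_ne_zero hd hm)) h2

/-- **A4.** the Cayley transform of `-(E + d T)⁻¹`. -/
theorem cay_centre {d E : ℝ} {m : ℂ} (hm : m.im ≠ 0) (hd : d ≠ 0) {T : Matrix ι ι ℂ}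
    (hT : Tᴴ = T)
    (hU : IsUnit ((E : ℂ) • (1 : Matrix ι ι ℂ) + (d : ℂ) • T).det) :
    cay (-1 / ((E : ℂ) + d * m)) (-((E : ℂ) • (1 : Matrix ι ι ℂ) + (d : ℂ) • T)⁻¹) =
      (((E : ℂ) + d * conj m) / ((E : ℂ) + d * m)) • cay m T := by
  set N : Matrix ι ι ℂ := (E : ℂ) • (1 : Matrix ι ι ℂ) + (d : ℂ) • T with hN
  have hNH : Nᴴ = N := by
    rw [hN, conjTranspose_add, conjTranspose_smul, conjTranspose_smul, conjTranspose_one, hT]
    simp
  have h1 := add_mul_ne (E := E) hm hd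
  have hmc : (conj m).im ≠ 0 := by
    rw [Complex.conj_im]
    exact neg_ne_zero.mpr hm
  have h2 := add_mul_ne (E := E) hmc hd
  have hNN : N⁻¹ * N = 1 := nonsing_inv_mul _ hU
  have hNN' : N * N⁻¹ = 1 := mul_nonsing_inv _ hU
  have hconj : conj (-1 / ((E : ℂ) + d * m)) = -1 / ((E : ℂ) + d * conj m) := by
    simp
  have hdecomp : ∀ c : ℂ, (E : ℂ) + d * c ≠ 0 →
      -N⁻¹ - (-1 / ((E : ℂ) + d * c)) • (1 : Matrix ι ι ℂ) =
        (d / ((E : ℂ) + d * c)) • (N⁻¹ * (T - c • (1 : Matrix ι ι ℂ))) := by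
    intro c hc
    have e1 : (d : ℂ) • (T - c • (1 : Matrix ι ι ℂ)) =
        N - ((E : ℂ) + d * c) • (1 : Matrix ι ι ℂ) := by
      rw [hN, smul_sub, smul_smul, add_smul]
      abel
    have e2 : (d / ((E : ℂ) + d * c)) • (N⁻¹ * (T - c • (1 : Matrix ι ι ℂ))) =
        (1 / ((E : ℂ) + d * c)) • (N⁻¹ * ((d : ℂ) • (T - c • (1 : Matrix ι ι ℂ)))) := by
      rw [Matrix.mul_smul, smul_smul]
      congr 1
      ring
    rw [e2, e1, Matrix.mul_sub, hNN, Matrix.mul_smul, Matrix.mul_one, smul_sub, smul_smul,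
      one_div, inv_mul_cancel₀ hc, one_smul, neg_div, one_div, neg_smul]
    abel
  have hcomm : N⁻¹ * cay m T = cay m T * N⁻¹ := by
    have hP : (T - (conj m) • (1 : Matrix ι ι ℂ))⁻¹ * N = N * (T - (conj m) • (1 : Matrix ι ι ℂ))⁻¹ := by
      have e1 : N = (d : ℂ) • (T - (conj m) • (1 : Matrix ι ι ℂ)) +
          ((E : ℂ) + d * conj m) • (1 : Matrix ι ι ℂ) := by
        rw [hN, smul_sub, smul_smul, add_smul]
        abel
      rw [e1, Matrix.mul_add, Matrix.add_mul, Matrix.mul_smul, Matrix.smul_mul,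
        nonsing_inv_mul _ (unit_conj hT hm), mul_nonsing_inv _ (unit_conj hT hm), Matrix.mul_smul,
        Matrix.smul_mul, Matrix.mul_one, Matrix.one_mul]
    have hC : cay m T * N = N * cay m T := by
      rw [cay_eq_one_sub hT hm, Matrix.sub_mul, Matrix.mul_sub, Matrix.smul_mul, Matrix.mul_smul,
        hP, Matrix.one_mul, Matrix.mul_one]
    calc N⁻¹ * cay m T = N⁻¹ * (cay m T * N) * N⁻¹ := by
          rw [Matrix.mul_assoc, Matrix.mul_assoc, hNN', Matrix.mul_one]
      _ = cay m T * N⁻¹ := by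
          rw [hC, ← Matrix.mul_assoc, hNN, Matrix.one_mul]
  apply eq_cay_of_mul
  · rw [conjTranspose_neg, conjTranspose_nonsing_inv, hNH]
  · exact im_md_ne hm hd
  · rw [hconj, hdecomp _ h2, hdecomp _ h1, Matrix.smul_mul, Matrix.mul_smul, smul_smul,
      ← Matrix.mul_assoc, ← hcomm, Matrix.mul_assoc, cay_mul hT hm]
    congr 1
    field_simp

end

end Vale.Agent.P156.A
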