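import Vale.Agent.P156.R2.Defs

/-!
P156, part A1: Schur complement formulas for the resolvents `resD A D z` of a real symmetric
matrix with the vertices of `D` removed.
-/

set_option linter.unusedSectionVars false

namespace Vale.Agent.P156.A

open Matrix Complex
open scoped ComplexConjugate

noncomputable section

section select

variable {V I : Type*} [Fintype V] [DecidableEq V] [Fintype I] [DecidableEq I]

/-- the selection matrix of the positions `x`. -/
def sel (x : I → V) : Matrix V I ℂ := fun a i => if a = x i then 1 else 0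

variable {x : I → V}

lemma sel_mul_apply (hx : Function.Injective x) {κ : Type*} (M : Matrix I κ ℂ) (i : I) (j : κ) :
    (sel x * M) (x i) j = M i j := by
  rw [mul_apply, Finset.sum_eq_single i]
  · simp [sel]
  · intro k _ hk
    rw [sel, if_neg (fun h => hk (hx h).symm), zero_mul]
  · intro h
    exact absurd (Finset.mem_univ _) h

lemma sel_mul_apply_of_ne {κ : Type*} (M : Matrix I κ ℂ) {a : V} (ha : ∀ i, a ≠ x i) (j : κ) :
    (sel x * M) a j = 0 := by
  rw [mul_apply]
  refine Finset.sum_eq_zero fun k _ => ?_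
  rw [sel, if_neg (ha k), zero_mul]

lemma mul_selT_apply (hx : Function.Injective x) {κ : Type*} (M : Matrix κ I ℂ) (i : I) (j : κ) :
    (M * (sel x)ᵀ) j (x i) = M j i := by
  rw [mul_apply, Finset.sum_eq_single i]
  · simp [sel]
  · intro k _ hk
    rw [transpose_apply, sel, if_neg (fun h => hk (hx h).symm), mul_zero]
  · intro h
    exact absurd (Finset.mem_univ _) h

lemma mul_selT_apply_of_ne {κ : Type*} (M : Matrix κ I ℂ) {a : V} (ha : ∀ i, a ≠ x i) (j : κ) :
    (M * (sel x)ᵀ) j a = 0 := by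
  rw [mul_apply]
  refine Finset.sum_eq_zero fun k _ => ?_
  rw [transpose_apply, sel, if_neg (ha k), mul_zero]

lemma selT_mul_apply {κ : Type*} (M : Matrix V κ ℂ) (i : I) (j : κ) :
    ((sel x)ᵀ * M) i j = M (x i) j := by
  rw [mul_apply, Finset.sum_eq_single (x i)]
  · simp [sel]
  · intro k _ hk
    rw [transpose_apply, sel, if_neg hk, zero_mul]
  · intro h
    exact absurd (Finset.mem_univ _) h

lemma mul_sel_apply {κ : Type*} (M : Matrix κ V ℂ) (i : I) (j : κ) :
    (M * sel x) j i = M j (x i) := by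
  rw [mul_apply, Finset.sum_eq_single (x i)]
  · simp [sel]
  · intro k _ hk
    rw [sel, if_neg hk, mul_zero]
  · intro h
    exact absurd (Finset.mem_univ _) h

lemma selT_mul_sel (hx : Function.Injective x) : (sel x)ᵀ * sel x = 1 := by
  ext i j
  rw [selT_mul_apply, sel, one_apply]
  simp [hx.eq_iff]

end select

section schur

variable {V I : Type*} [Fintype V] [DecidableEq V] [Fintype I] [DecidableEq I]
variable (A : Matrix V V ℝ) (D : Finset V) (x : I → V) (z : ℂ)

/-- the couplings between the positions `x` and the vertices outside of `D'`. -/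
def cpl (A : Matrix V V ℝ) (D' : Finset V) (x : I → V) : Matrix V I ℂ :=
  fun a i => if a ∈ D' then 0 else (A a (x i) : ℂ)

/-- `A - z` on the positions `x`. -/
def blk (A : Matrix V V ℝ) (x : I → V) (z : ℂ) : Matrix I I ℂ :=
  fun i j => (A (x i) (x j) : ℂ) - if i = j then z else 0

/-- the Schur complement `A_QQ - z - A_QL R^{D'} A_LQ`. -/
def schurM (A : Matrix V V ℝ) (D' : Finset V) (x : I → V) (z : ℂ) : Matrix I I ℂ :=
  blk A x z - (cpl A D' x)ᵀ * resD A D' z * cpl A D' x

variable {A D x z}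

lemma cutMat_symm (hA : A.IsSymm) (D : Finset V) (z : ℂ) : (cutMat A D z)ᵀ = cutMat A D z := by
  ext a b
  rw [transpose_apply]
  unfold cutMat
  rw [hA.apply a b]
  by_cases h : a = b
  · subst h; rfl
  · have h' : ¬ b = a := fun e => h e.symm
    rw [if_neg h, if_neg h', if_neg h, if_neg h']
    by_cases h1 : a ∈ D <;> by_cases h2 : b ∈ D <;> simp [h1, h2]

lemma resD_symm (hA : A.IsSymm) (D : Finset V) (z : ℂ) : (resD A D z)ᵀ = resD A D z := by
  rw [resD, transpose_nonsing_inv, cutMat_symm hA]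

lemma cutMat_mul_sel {D' : Finset V} (hxD : ∀ i, x i ∈ D') :
    cutMat A D' z * sel x = sel x := by
  ext a i
  rw [mul_sel_apply, cutMat, if_pos (Or.inr (hxD i)), sel]

lemma selT_mul_cutMat {D' : Finset V} (hxD : ∀ i, x i ∈ D') :
    (sel x)ᵀ * cutMat A D' z = (sel x)ᵀ := by
  ext i a
  rw [selT_mul_apply, cutMat, if_pos (Or.inl (hxD i)), transpose_apply, sel]
  by_cases h : x i = a
  · rw [if_pos h, if_pos h.symm]
  · rw [if_neg h, if_neg (fun e => h e.symm)]

lemma resD_mul_sel {D' : Finset V} (hxD : ∀ i, x i ∈ D') (hU : IsUnit (cutMat A D' z).det) :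
    resD A D' z * sel x = sel x := by
  have h := cutMat_mul_sel (A := A) (z := z) hxD
  rw [resD]
  conv_lhs => rw [← h]
  rw [← Matrix.mul_assoc, nonsing_inv_mul _ hU, Matrix.one_mul]

lemma selT_mul_resD {D' : Finset V} (hxD : ∀ i, x i ∈ D') (hU : IsUnit (cutMat A D' z).det) :
    (sel x)ᵀ * resD A D' z = (sel x)ᵀ := by
  have h := selT_mul_cutMat (A := A) (z := z) hxD
  rw [resD]
  conv_lhs => rw [← h]
  rw [Matrix.mul_assoc, mul_nonsing_inv _ hU, Matrix.mul_one]

lemma selT_mul_cpl {D' : Finset V} (hxD : ∀ i, x i ∈ D') : (sel x)ᵀ * cpl A D' x = 0 := by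
  ext i j
  rw [selT_mul_apply, cpl, if_pos (hxD i), Matrix.zero_apply]

lemma cplT_mul_sel {D' : Finset V} (hxD : ∀ i, x i ∈ D') : (cpl A D' x)ᵀ * sel x = 0 := by
  ext i j
  rw [mul_sel_apply, transpose_apply, cpl, if_pos (hxD j), Matrix.zero_apply]

/-- decomposition of `cutMat A D z` when the vertices `x i` are added to `D`. -/
lemma cutMat_decomp (hA : A.IsSymm) (hx : Function.Injective x) (hxD : ∀ i, x i ∉ D)
    {D' : Finset V} (hD' : ∀ a, a ∈ D' ↔ a ∈ D ∨ ∃ i, a = x i) :
    cutMat A D z = cutMat A D' z - sel x * (sel x)ᵀ + sel x * (cpl A D' x)ᵀ +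
      cpl A D' x * (sel x)ᵀ + sel x * (blk A x z) * (sel x)ᵀ := by
  ext a b
  simp only [Matrix.add_apply, Matrix.sub_apply]
  have key : ∀ c : V, (∃ i, c = x i) ∨ ((∀ i, c ≠ x i) ∧ c ∈ D ∧ c ∈ D') ∨
      ((∀ i, c ≠ x i) ∧ c ∉ D ∧ c ∉ D') := by
    intro c
    by_cases h1 : ∃ i, c = x i
    · exact Or.inl h1
    · have h1' : ∀ i, c ≠ x i := fun i hi => h1 ⟨i, hi⟩
      by_cases h2 : c ∈ D
      · exact Or.inr (Or.inl ⟨h1', h2, (hD' c).mpr (Or.inl h2)⟩)
      · exact Or.inr (Or.inr ⟨h1', h2, fun h => ((hD' c).mp h).elim h2 h1⟩)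
  have hmem : ∀ i, x i ∈ D' := fun i => (hD' _).mpr (Or.inr ⟨i, rfl⟩)
  rcases key a with ⟨i, rfl⟩ | ⟨ha, haD, haD'⟩ | ⟨ha, haD, haD'⟩
  · rw [sel_mul_apply hx, sel_mul_apply hx, Matrix.mul_assoc, sel_mul_apply hx]
    rcases key b with ⟨j, rfl⟩ | ⟨hb, hbD, hbD'⟩ | ⟨hb, hbD, hbD'⟩
    · rw [mul_selT_apply hx, mul_selT_apply hx, transpose_apply, transpose_apply]
      unfold cutMat cpl blk sel
      simp only [hxD, hmem, or_self, if_false, if_true, hx.eq_iff]
      by_cases h : i = j
      · subst h; simp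
      · have h' : ¬ j = i := fun e => h e.symm
        simp [h, h']
    · rw [mul_selT_apply_of_ne _ hb, mul_selT_apply_of_ne _ hb, transpose_apply, transpose_apply]
      unfold cutMat cpl sel
      rw [if_pos (Or.inr hbD), if_pos (Or.inr hbD'), if_pos hbD', if_neg (hb i)]
      simp
    · rw [mul_selT_apply_of_ne _ hb, mul_selT_apply_of_ne _ hb, transpose_apply, transpose_apply]
      unfold cutMat cpl sel
      have h1 : ¬ (x i ∈ D ∨ b ∈ D) := by
        rintro (h | h)
        · exact hxD i h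
        · exact hbD h
      rw [if_neg h1, if_pos (Or.inl (hmem i)), if_neg hbD', if_neg (hb i),
        if_neg (fun e => hb i e.symm), if_neg (fun e => hb i e.symm), hA.apply (x i) b]
      ring
  · rw [sel_mul_apply_of_ne _ ha, sel_mul_apply_of_ne _ ha, Matrix.mul_assoc,
      sel_mul_apply_of_ne _ ha]
    have h0 : (cpl A D' x * (sel x)ᵀ) a b = 0 := by
      rw [mul_apply]
      refine Finset.sum_eq_zero fun k _ => ?_
      rw [cpl, if_pos haD', zero_mul]
    rw [h0]
    unfold cutMat
    rw [if_pos (Or.inl haD), if_pos (Or.inl haD')]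
    ring
  · rw [sel_mul_apply_of_ne _ ha, sel_mul_apply_of_ne _ ha, Matrix.mul_assoc,
      sel_mul_apply_of_ne _ ha]
    rcases key b with ⟨j, rfl⟩ | ⟨hb, hbD, hbD'⟩ | ⟨hb, hbD, hbD'⟩
    · rw [mul_selT_apply hx]
      unfold cutMat cpl
      have h1 : ¬ (a ∈ D ∨ x j ∈ D) := by
        rintro (h | h)
        · exact haD h
        · exact hxD j h
      rw [if_neg h1, if_pos (Or.inr (hmem j)), if_neg haD', if_neg (ha j), if_neg (ha j)]
      ring
    · rw [mul_selT_apply_of_ne _ hb]
      unfold cutMat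
      rw [if_pos (Or.inr hbD), if_pos (Or.inr hbD')]
      ring
    · rw [mul_selT_apply_of_ne _ hb]
      unfold cutMat
      have h1 : ¬ (a ∈ D ∨ b ∈ D) := by
        rintro (h | h)
        · exact haD h
        · exact hbD h
      have h2 : ¬ (a ∈ D' ∨ b ∈ D') := by
        rintro (h | h)
        · exact haD' h
        · exact hbD' h
      rw [if_neg h1, if_neg h2]
      ring

/-- the columns `e_i - R^{D'} (coupling of x i)`. -/
def colU (A : Matrix V V ℝ) (D' : Finset V) (x : I → V) (z : ℂ) : Matrix V I ℂ :=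
  sel x - resD A D' z * cpl A D' x

section main

variable (hA : A.IsSymm) (hx : Function.Injective x) (hxD : ∀ i, x i ∉ D)
  {D' : Finset V} (hD' : ∀ a, a ∈ D' ↔ a ∈ D ∨ ∃ i, a = x i)
  (hU' : IsUnit (cutMat A D' z).det)

include hD' in
lemma mem_of_pos (i : I) : x i ∈ D' := (hD' _).mpr (Or.inr ⟨i, rfl⟩)

include hD' hU' in
lemma selT_mul_colU (hx : Function.Injective x) : (sel x)ᵀ * colU A D' x z = 1 := by
  rw [colU, Matrix.mul_sub, selT_mul_sel hx, ← Matrix.mul_assoc,
    selT_mul_resD (mem_of_pos hD') hU', selT_mul_cpl (mem_of_pos hD'), sub_zero]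

include hA hx hxD hD' hU' in
/-- `(A - z)_D U = e Σ`. -/
lemma cutMat_mul_colU :
    cutMat A D z * colU A D' x z = sel x * schurM A D' x z := by
  have hm := mem_of_pos hD'
  have h0 : cutMat A D' z * colU A D' x z = sel x - cpl A D' x := by
    rw [colU, Matrix.mul_sub, cutMat_mul_sel hm, resD, ← Matrix.mul_assoc,
      mul_nonsing_inv _ hU', Matrix.one_mul]
  have h1 := selT_mul_colU (A := A) (z := z) hD' hU' hx
  have h2 : (cpl A D' x)ᵀ * colU A D' x z = -((cpl A D' x)ᵀ * resD A D' z * cpl A D' x) := by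
    rw [colU, Matrix.mul_sub, cplT_mul_sel hm, zero_sub, Matrix.mul_assoc]
  rw [cutMat_decomp hA hx hxD hD']
  simp only [Matrix.add_mul, Matrix.sub_mul, Matrix.mul_assoc]
  rw [h1, h2, h0, schurM]
  simp only [Matrix.mul_one, Matrix.mul_sub, Matrix.mul_neg, Matrix.mul_assoc]
  abel

include hA hx hxD hD' hU' in
lemma cutMat_mul_resD' :
    cutMat A D z * (resD A D' z - sel x * (sel x)ᵀ) = 1 - sel x * (colU A D' x z)ᵀ := by
  have hm := mem_of_pos hD'
  have h3 : (colU A D' x z)ᵀ = (sel x)ᵀ - (cpl A D' x)ᵀ * resD A D' z := by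
    rw [colU, transpose_sub, transpose_mul, resD_symm hA]
  have h4 : cutMat A D' z * resD A D' z = 1 := by rw [resD, mul_nonsing_inv _ hU']
  rw [h3, cutMat_decomp hA hx hxD hD']
  simp only [Matrix.add_mul, Matrix.sub_mul, Matrix.mul_sub]
  rw [h4]
  have e1 : sel x * (sel x)ᵀ * resD A D' z = sel x * (sel x)ᵀ := by
    rw [Matrix.mul_assoc, selT_mul_resD hm hU']
  have e2 : cpl A D' x * (sel x)ᵀ * resD A D' z = cpl A D' x * (sel x)ᵀ := by
    rw [Matrix.mul_assoc, selT_mul_resD hm hU']
  have e3 : sel x * blk A x z * (sel x)ᵀ * resD A D' z = sel x * blk A x z * (sel x)ᵀ := by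
    rw [Matrix.mul_assoc, selT_mul_resD hm hU']
  have e4 : cutMat A D' z * (sel x * (sel x)ᵀ) = sel x * (sel x)ᵀ := by
    rw [← Matrix.mul_assoc, cutMat_mul_sel hm]
  have e5 : sel x * (sel x)ᵀ * (sel x * (sel x)ᵀ) = sel x * (sel x)ᵀ := by
    rw [Matrix.mul_assoc, ← Matrix.mul_assoc _ (sel x), selT_mul_sel hx, Matrix.one_mul]
  have e6 : sel x * (cpl A D' x)ᵀ * (sel x * (sel x)ᵀ) = 0 := by
    rw [Matrix.mul_assoc, ← Matrix.mul_assoc _ (sel x), cplT_mul_sel hm, Matrix.zero_mul,
      Matrix.mul_zero]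
  have e7 : cpl A D' x * (sel x)ᵀ * (sel x * (sel x)ᵀ) = cpl A D' x * (sel x)ᵀ := by
    rw [Matrix.mul_assoc, ← Matrix.mul_assoc _ (sel x), selT_mul_sel hx, Matrix.one_mul]
  have e8 : sel x * blk A x z * (sel x)ᵀ * (sel x * (sel x)ᵀ) = sel x * blk A x z * (sel x)ᵀ := by
    rw [Matrix.mul_assoc, ← Matrix.mul_assoc _ (sel x), selT_mul_sel hx, Matrix.one_mul]
  rw [e1, e2, e3, e4, e5, e6, e7, e8, Matrix.mul_assoc (sel x) (cpl A D' x)ᵀ]
  abel

include hA hx hxD hD' hU' in
/-- the Schur complement is invertible. -/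
theorem isUnit_schurM (hU : IsUnit (cutMat A D z).det) : IsUnit (schurM A D' x z).det := by
  rw [isUnit_iff_ne_zero]
  intro hdet
  obtain ⟨v, hv, hMv⟩ := Matrix.exists_mulVec_eq_zero_iff.mpr hdet
  apply hv
  have h1 : cutMat A D z *ᵥ (colU A D' x z *ᵥ v) = 0 := by
    rw [mulVec_mulVec, cutMat_mul_colU hA hx hxD hD' hU', ← mulVec_mulVec, hMv, mulVec_zero]
  have h2 : colU A D' x z *ᵥ v = 0 := by
    have h5 : (cutMat A D z)⁻¹ *ᵥ (cutMat A D z *ᵥ (colU A D' x z *ᵥ v)) = 0 := by
      rw [h1, mulVec_zero]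
    rwa [mulVec_mulVec, nonsing_inv_mul _ hU, one_mulVec] at h5
  have h3 : (sel x)ᵀ *ᵥ (colU A D' x z *ᵥ v) = v := by
    rw [mulVec_mulVec, selT_mul_colU hD' hU' hx, one_mulVec]
  rw [← h3, h2, mulVec_zero]

include hA hx hxD hD' hU' in
/-- A1, block form: adding the vertices `x i` back to the graph. -/
theorem resD_eq_of_schur (hS : IsUnit (schurM A D' x z).det) :
    resD A D z = resD A D' z - sel x * (sel x)ᵀ +
      colU A D' x z * (schurM A D' x z)⁻¹ * (colU A D' x z)ᵀ := by
  rw [resD]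
  apply inv_eq_right_inv
  rw [Matrix.mul_add, cutMat_mul_resD' hA hx hxD hD' hU', ← Matrix.mul_assoc, ← Matrix.mul_assoc,
    cutMat_mul_colU hA hx hxD hD' hU', Matrix.mul_assoc (sel x), mul_nonsing_inv _ hS,
    Matrix.mul_one, sub_add_cancel]

include hA hx hxD hD' hU' in
lemma isUnit_cutMat_of_schur (hS : IsUnit (schurM A D' x z).det) :
    IsUnit (cutMat A D z).det := by
  have h : cutMat A D z * (resD A D' z - sel x * (sel x)ᵀ +
      colU A D' x z * (schurM A D' x z)⁻¹ * (colU A D' x z)ᵀ) = 1 := by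
    rw [Matrix.mul_add, cutMat_mul_resD' hA hx hxD hD' hU', ← Matrix.mul_assoc,
      ← Matrix.mul_assoc, cutMat_mul_colU hA hx hxD hD' hU', Matrix.mul_assoc (sel x),
      mul_nonsing_inv _ hS, Matrix.mul_one, sub_add_cancel]
  exact isUnit_det_of_right_inverse h

variable (hU : IsUnit (cutMat A D z).det)

include hA hx hxD hD' hU' hU in
/-- A1: the resolvent on the added vertices is the inverse of the Schur complement. -/
theorem resD_submatrix_eq : (resD A D z).submatrix x x = (schurM A D' x z)⁻¹ := by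
  have hS := isUnit_schurM hA hx hxD hD' hU' hU
  have hm := mem_of_pos hD'
  have h1 : (resD A D z).submatrix x x = (sel x)ᵀ * resD A D z * sel x := by
    ext i j
    rw [submatrix_apply, mul_sel_apply, selT_mul_apply]
  have h5 : (colU A D' x z)ᵀ * sel x = 1 := by
    have := congrArg transpose (selT_mul_colU (A := A) (z := z) hD' hU' hx)
    rwa [transpose_mul, transpose_transpose, transpose_one] at this
  rw [h1, resD_eq_of_schur hA hx hxD hD' hU' hS]
  simp only [Matrix.mul_add, Matrix.add_mul, Matrix.mul_sub, Matrix.sub_mul]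
  rw [selT_mul_resD hm hU', selT_mul_sel hx]
  have e1 : (sel x)ᵀ * (sel x * (sel x)ᵀ) * sel x = (1 : Matrix I I ℂ) := by
    rw [← Matrix.mul_assoc, selT_mul_sel hx, Matrix.one_mul, selT_mul_sel hx]
  have e2 : (sel x)ᵀ * (colU A D' x z * (schurM A D' x z)⁻¹ * (colU A D' x z)ᵀ) * sel x
      = (schurM A D' x z)⁻¹ := by
    rw [Matrix.mul_assoc, Matrix.mul_assoc (colU A D' x z * _), h5, Matrix.mul_one,
      ← Matrix.mul_assoc, selT_mul_colU hD' hU' hx, Matrix.one_mul]
  rw [e1, e2]
  abel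

include hA hx hxD hD' hU' hU in
/-- the columns of the resolvent at the added vertices. -/
lemma resD_mul_sel_eq : resD A D z * sel x = colU A D' x z * (schurM A D' x z)⁻¹ := by
  have hS := isUnit_schurM hA hx hxD hD' hU' hU
  have hm := mem_of_pos hD'
  have h5 : (colU A D' x z)ᵀ * sel x = 1 := by
    have := congrArg transpose (selT_mul_colU (A := A) (z := z) hD' hU' hx)
    rwa [transpose_mul, transpose_transpose, transpose_one] at this
  rw [resD_eq_of_schur hA hx hxD hD' hU' hS, Matrix.add_mul, Matrix.sub_mul, resD_mul_sel hm hU',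
    Matrix.mul_assoc (sel x), selT_mul_sel hx, Matrix.mul_one, sub_self, zero_add,
    Matrix.mul_assoc _ (colU A D' x z)ᵀ, h5, Matrix.mul_one]

lemma sel_submatrix {L : Type*} {y : L → V} (hy : ∀ l i, y l ≠ x i) :
    (sel x).submatrix y (id : I → I) = 0 := by
  ext l i
  rw [submatrix_apply, id, sel, if_neg (hy l i), Matrix.zero_apply]

lemma schurM_symm (hA : A.IsSymm) (D' : Finset V) (x : I → V) (z : ℂ) :
    (schurM A D' x z)ᵀ = schurM A D' x z := by
  have h1 : (blk A x z)ᵀ = blk A x z := by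
    ext i j
    rw [transpose_apply]
    unfold blk
    rw [hA.apply]
    by_cases h : i = j
    · subst h; rfl
    · rw [if_neg h, if_neg (fun e => h e.symm)]
  rw [schurM, transpose_sub, transpose_mul, transpose_mul, transpose_transpose, resD_symm hA, h1,
    Matrix.mul_assoc]

variable {L L' : Type*} {y : L → V} {y' : L' → V}

lemma colU_submatrix (hy : ∀ l i, y l ≠ x i) :
    (colU A D' x z).submatrix y id = -((resD A D' z * cpl A D' x).submatrix y id) := by
  ext l k
  rw [submatrix_apply, colU, Matrix.sub_apply, Matrix.neg_apply, submatrix_apply, sel,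
    id, if_neg (hy l k), zero_sub]

include hA hx hxD hD' hU' hU in
/-- A1, adding: off-diagonal block, couplings `cpl A D' x`. -/
theorem resD_submatrix_off (hy : ∀ l i, y l ≠ x i) :
    (resD A D z).submatrix y x =
      -((resD A D' z * cpl A D' x).submatrix y id * (schurM A D' x z)⁻¹) := by
  have h1 : (resD A D z).submatrix y x = (resD A D z * sel x).submatrix y id := by
    ext l i
    rw [submatrix_apply, submatrix_apply, id, mul_sel_apply]
  rw [h1, resD_mul_sel_eq hA hx hxD hD' hU' hU, ← Matrix.neg_mul, ← colU_submatrix hy]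
  ext l i
  rfl

include hA hx hxD hD' hU' hU in
/-- A1, adding: the block away from the added vertices. -/
theorem resD_submatrix_away (hy : ∀ l i, y l ≠ x i) (hy' : ∀ l i, y' l ≠ x i) :
    (resD A D z).submatrix y y' = (resD A D' z).submatrix y y' +
      (resD A D' z * cpl A D' x).submatrix y id * (schurM A D' x z)⁻¹ *
        ((resD A D' z * cpl A D' x).submatrix y' id)ᵀ := by
  have hS := isUnit_schurM hA hx hxD hD' hU' hU
  have hs : (sel x * (sel x)ᵀ).submatrix y y' = 0 := by
    ext l l'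
    rw [submatrix_apply, sel_mul_apply_of_ne _ (hy l), Matrix.zero_apply]
  have h1 : (colU A D' x z * (schurM A D' x z)⁻¹ * (colU A D' x z)ᵀ).submatrix y y' =
      (colU A D' x z).submatrix y id * (schurM A D' x z)⁻¹ *
        ((colU A D' x z).submatrix y' id)ᵀ := by
    ext l l'
    rfl
  rw [resD_eq_of_schur hA hx hxD hD' hU' hS, Matrix.submatrix_add, Matrix.submatrix_sub]
  simp only [Pi.add_apply, Pi.sub_apply]
  rw [hs, h1, colU_submatrix hy, colU_submatrix hy', sub_zero, transpose_neg]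
  simp only [Matrix.neg_mul, Matrix.mul_neg, neg_neg]

include hA hx hxD hD' hU' hU in
/-- A1, deletion: `R^{D'}_ab = R^D_ab - R^D_aQ (R^D_QQ)⁻¹ R^D_Qb` for `a, b` not in `Q`. -/
theorem resD_deletion (hy : ∀ l i, y l ≠ x i) (hy' : ∀ l i, y' l ≠ x i) :
    (resD A D' z).submatrix y y' = (resD A D z).submatrix y y' -
      (resD A D z).submatrix y x * ((resD A D z).submatrix x x)⁻¹ *
        (resD A D z).submatrix x y' := by
  have hS := isUnit_schurM hA hx hxD hD' hU' hU
  have hsym := resD_symm hA D z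
  have h3 : (resD A D z).submatrix x y' = ((resD A D z).submatrix y' x)ᵀ := by
    rw [transpose_submatrix, hsym]
  rw [h3, resD_submatrix_off hA hx hxD hD' hU' hU hy, resD_submatrix_off hA hx hxD hD' hU' hU hy',
    resD_submatrix_eq hA hx hxD hD' hU' hU, nonsing_inv_nonsing_inv _ hS,
    resD_submatrix_away hA hx hxD hD' hU' hU hy hy', transpose_neg, transpose_mul,
    transpose_nonsing_inv, schurM_symm hA]
  simp only [Matrix.neg_mul, Matrix.mul_neg, neg_neg]
  rw [Matrix.mul_assoc _ _ (schurM A D' x z), nonsing_inv_mul _ hS, Matrix.mul_one,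
    ← Matrix.mul_assoc]
  abel

end main

end schur

end

end Vale.Agent.P156.A
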