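import Vale.Agent.P156.H574.Closing
import Vale.Agent.P156.H574.Schur
import Vale.Agent.P156.H574.Attach

/-!
P156, part A: nonsingularity of `cutMat` off the real axis, reality and symmetry of the resolvents
at real energies, equivariance and continuity of the Cayley transform.
-/

set_option linter.unusedSectionVars false

namespace Vale.Agent.P156.A

open Matrix Complex Topology Filter
open scoped ComplexConjugate ComplexOrder

noncomputable section

section cut

variable {V : Type*} [Fintype V] [DecidableEq V] {A : Matrix V V ℝ}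

lemma cutMat_eq_sub (A : Matrix V V ℝ) (D : Finset V) (z : ℂ) :
    cutMat A D z = cutMat A D 0 - z • diagonal (fun a => if a ∈ D then (0 : ℂ) else 1) := by
  ext a b
  rw [Matrix.sub_apply, Matrix.smul_apply, smul_eq_mul]
  unfold cutMat
  by_cases hab : a = b
  · subst hab
    by_cases ha : a ∈ D
    · simp [ha]
    · simp [ha]
  · rw [diagonal_apply_ne _ hab]
    simp [hab]

lemma cutMat_ofReal_realSymm (hA : A.IsSymm) (D : Finset V) (E : ℝ) :
    RealSymm (cutMat A D (E : ℂ)) := by
  refine ⟨?_, cutMat_symm hA D _⟩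
  have h1 : ∀ a b, conj (cutMat A D (E : ℂ) a b) = cutMat A D (E : ℂ) a b := by
    intro a b
    unfold cutMat
    split_ifs <;> simp
  ext a b
  rw [conjTranspose_apply]
  change conj (cutMat A D (E : ℂ) b a) = _
  rw [h1]
  exact congrFun (congrFun (cutMat_symm hA D (E : ℂ)) a) b

/-- nonsingularity off the real axis. -/
theorem isUnit_cutMat_of_im (hA : A.IsSymm) (D : Finset V) {z : ℂ} (hz : z.im ≠ 0) :
    IsUnit (cutMat A D z).det := by
  apply isUnit_det_of_im
  intro x hx
  have hH : (cutMat A D 0)ᴴ = cutMat A D 0 := by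
    have := (cutMat_ofReal_realSymm hA D 0).1
    simpa using this
  have h1 : (star x ⬝ᵥ cutMat A D 0 *ᵥ x).im = 0 := im_quad_eq_zero hH x
  set y : V → ℂ := fun a => if a ∈ D then 0 else x a with hy
  have hQ : diagonal (fun a => if a ∈ D then (0 : ℂ) else 1) *ᵥ x = y := by
    ext a
    rw [mulVec_diagonal, hy]
    by_cases ha : a ∈ D <;> simp [ha]
  have h2 : star x ⬝ᵥ y = star y ⬝ᵥ y := by
    unfold dotProduct
    refine Finset.sum_congr rfl fun a _ => ?_
    by_cases ha : a ∈ D <;> simp [hy, ha]
  rw [cutMat_eq_sub, sub_mulVec, smul_mulVec, hQ, sub_eq_zero] at hx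
  rw [hx, dotProduct_smul, smul_eq_mul, h2, Complex.mul_im, im_star_dot_self, mul_zero,
    zero_add] at h1
  have hy0 : y = 0 := by
    by_contra h0
    rcases mul_eq_zero.mp h1 with h | h
    · exact hz h
    · exact (star_dot_self_re_pos h0).ne' h
  rw [hy0, smul_zero] at hx
  ext a
  by_cases ha : a ∈ D
  · have h3 := congrFun hx a
    rw [mulVec, dotProduct, Finset.sum_eq_single a] at h3
    · unfold cutMat at h3
      simpa [ha] using h3
    · intro b _ hb
      unfold cutMat
      rw [if_pos (Or.inl ha), if_neg (Ne.symm hb), zero_mul]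
    · intro h
      exact absurd (Finset.mem_univ _) h
  · have h3 := congrFun hy0 a
    simpa [hy, ha] using h3

lemma RealSymm.inv {ι : Type*} [Fintype ι] [DecidableEq ι] {R : Matrix ι ι ℂ} (hR : RealSymm R) :
    RealSymm R⁻¹ := by
  refine ⟨?_, ?_⟩
  · rw [conjTranspose_nonsing_inv, hR.1]
  · rw [transpose_nonsing_inv, hR.2]

lemma RealSymm.submatrix {ι κ : Type*} {R : Matrix ι ι ℂ}
    (hR : RealSymm R) (f : κ → ι) : RealSymm (R.submatrix f f) := by
  refine ⟨?_, ?_⟩
  · rw [conjTranspose_submatrix, hR.1]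
  · rw [transpose_submatrix, hR.2]

theorem resD_realSymm (hA : A.IsSymm) (D : Finset V) (E : ℝ) : RealSymm (resD A D (E : ℂ)) :=
  (cutMat_ofReal_realSymm hA D E).inv

end cut

section graph

variable {n d K : ℕ}

lemma adj_isSymm (G : SimpleGraph (Fin n)) : (adj G).IsSymm := by
  ext a b
  rw [transpose_apply]
  have := (adj_isHermitian G).apply a b
  simpa using this

theorem leadMat_realSymm (ω : SimpleGraph (Fin n) × StarPos n d K) (E : ℝ) :
    RealSymm (leadMat ω (E : ℂ)) :=
  (resD_realSymm (adj_isSymm _) _ _).submatrix _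

theorem centreMat_realSymm (ω : SimpleGraph (Fin n) × StarPos n d K) (E : ℝ) :
    RealSymm (centreMat ω (E : ℂ)) :=
  (resD_realSymm (adj_isSymm _) _ _).submatrix _

theorem starMat_realSymm (ω : SimpleGraph (Fin n) × StarPos n d K) (E : ℝ) :
    RealSymm (starMat ω (E : ℂ)) :=
  (resD_realSymm (adj_isSymm _) _ _).submatrix _

end graph

end

end Vale.Agent.P156.A
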