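import Vale.Agent.P156.H574.Cayley

/-!
P156, part A: closing of channels and compression, seen on Cayley transforms.
-/

set_option linter.unusedSectionVars false

namespace Vale.Agent.P156.A

open Matrix Complex
open scoped ComplexConjugate ComplexOrder

variable {κ τ : Type*} [Fintype κ] [DecidableEq κ] [Fintype τ] [DecidableEq τ]

/-- closing the channels `τ` with the matrix `C`. -/
noncomputable def closeM (S : Matrix (κ ⊕ τ) (κ ⊕ τ) ℂ) (C : Matrix τ τ ℂ) : Matrix κ κ ℂ :=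
  S.toBlocks₁₁ + S.toBlocks₁₂ * (C - S.toBlocks₂₂)⁻¹ * S.toBlocks₂₁

/-- the Schur type complement that corresponds to closing at the level of resolvents. -/
noncomputable def closeR (R : Matrix (κ ⊕ τ) (κ ⊕ τ) ℂ) (K : Matrix τ τ ℂ) : Matrix κ κ ℂ :=
  R.toBlocks₁₁ - R.toBlocks₁₂ * (R.toBlocks₂₂ - K)⁻¹ * R.toBlocks₂₁

lemma mulVec_inl (M : Matrix (κ ⊕ τ) (κ ⊕ τ) ℂ) (x : κ ⊕ τ → ℂ) :
    (M *ᵥ x) ∘ Sum.inl = M.toBlocks₁₁ *ᵥ (x ∘ Sum.inl) + M.toBlocks₁₂ *ᵥ (x ∘ Sum.inr) := by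
  conv_lhs => rw [← fromBlocks_toBlocks M, fromBlocks_mulVec]
  rfl

lemma mulVec_inr (M : Matrix (κ ⊕ τ) (κ ⊕ τ) ℂ) (x : κ ⊕ τ → ℂ) :
    (M *ᵥ x) ∘ Sum.inr = M.toBlocks₂₁ *ᵥ (x ∘ Sum.inl) + M.toBlocks₂₂ *ᵥ (x ∘ Sum.inr) := by
  conv_lhs => rw [← fromBlocks_toBlocks M, fromBlocks_mulVec]
  rfl

section blocks

variable {R : Matrix (κ ⊕ τ) (κ ⊕ τ) ℂ}

lemma herm_blocks (hR : Rᴴ = R) :
    R.toBlocks₁₁ᴴ = R.toBlocks₁₁ ∧ R.toBlocks₂₂ᴴ = R.toBlocks₂₂ ∧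
      R.toBlocks₁₂ᴴ = R.toBlocks₂₁ ∧ R.toBlocks₂₁ᴴ = R.toBlocks₁₂ := by
  have h := hR
  refine ⟨?_, ?_, ?_, ?_⟩ <;>
  · ext i j
    first
    | exact congrFun (congrFun h (Sum.inl i)) (Sum.inl j)
    | exact congrFun (congrFun h (Sum.inr i)) (Sum.inr j)
    | exact congrFun (congrFun h (Sum.inr i)) (Sum.inl j)
    | exact congrFun (congrFun h (Sum.inl i)) (Sum.inr j)

lemma symm_blocks (hR : Rᵀ = R) :
    R.toBlocks₁₁ᵀ = R.toBlocks₁₁ ∧ R.toBlocks₂₂ᵀ = R.toBlocks₂₂ ∧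
      R.toBlocks₁₂ᵀ = R.toBlocks₂₁ ∧ R.toBlocks₂₁ᵀ = R.toBlocks₁₂ := by
  have h := hR
  refine ⟨?_, ?_, ?_, ?_⟩ <;>
  · ext i j
    first
    | exact congrFun (congrFun h (Sum.inl i)) (Sum.inl j)
    | exact congrFun (congrFun h (Sum.inr i)) (Sum.inr j)
    | exact congrFun (congrFun h (Sum.inr i)) (Sum.inl j)
    | exact congrFun (congrFun h (Sum.inl i)) (Sum.inr j)

lemma closeR_herm (hR : Rᴴ = R) {K : Matrix τ τ ℂ} (hK : Kᴴ = K) :
    (closeR R K)ᴴ = closeR R K := by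
  obtain ⟨h1, h2, h3, h4⟩ := herm_blocks hR
  rw [closeR, conjTranspose_sub, conjTranspose_mul, conjTranspose_mul, conjTranspose_nonsing_inv,
    conjTranspose_sub, h1, h2, h3, h4, hK, Matrix.mul_assoc]

lemma closeR_realSymm (hR : RealSymm R) {K : Matrix τ τ ℂ} (hK : RealSymm K) :
    RealSymm (closeR R K) := by
  refine ⟨closeR_herm hR.1 hK.1, ?_⟩
  obtain ⟨h1, h2, h3, h4⟩ := symm_blocks hR.2
  rw [closeR, transpose_sub, transpose_mul, transpose_mul, transpose_nonsing_inv,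
    transpose_sub, h1, h2, h3, h4, hK.2, Matrix.mul_assoc]

variable {m : ℂ}

lemma sub_smul_one_blocks (R : Matrix (κ ⊕ τ) (κ ⊕ τ) ℂ) (c : ℂ) :
    R - c • (1 : Matrix (κ ⊕ τ) (κ ⊕ τ) ℂ) =
      fromBlocks (R.toBlocks₁₁ - c • 1) R.toBlocks₁₂ R.toBlocks₂₁ (R.toBlocks₂₂ - c • 1) := by
  ext i j
  rcases i with i | i <;> rcases j with j | j <;>
    simp [toBlocks₁₁, toBlocks₁₂, toBlocks₂₁, toBlocks₂₂, one_apply]

lemma rel_blocks {S R : Matrix (κ ⊕ τ) (κ ⊕ τ) ℂ} {a b : ℂ}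
    (h : S * (R - a • (1 : Matrix (κ ⊕ τ) (κ ⊕ τ) ℂ)) = R - b • (1 : Matrix (κ ⊕ τ) (κ ⊕ τ) ℂ)) :
    S.toBlocks₁₁ * (R.toBlocks₁₁ - a • (1 : Matrix κ κ ℂ)) + S.toBlocks₁₂ * R.toBlocks₂₁ =
        R.toBlocks₁₁ - b • (1 : Matrix κ κ ℂ) ∧
      S.toBlocks₁₁ * R.toBlocks₁₂ + S.toBlocks₁₂ * (R.toBlocks₂₂ - a • (1 : Matrix τ τ ℂ)) =
        R.toBlocks₁₂ ∧
      S.toBlocks₂₁ * (R.toBlocks₁₁ - a • (1 : Matrix κ κ ℂ)) + S.toBlocks₂₂ * R.toBlocks₂₁ =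
        R.toBlocks₂₁ ∧
      S.toBlocks₂₁ * R.toBlocks₁₂ + S.toBlocks₂₂ * (R.toBlocks₂₂ - a • (1 : Matrix τ τ ℂ)) =
        R.toBlocks₂₂ - b • (1 : Matrix τ τ ℂ) := by
  rw [sub_smul_one_blocks, sub_smul_one_blocks] at h
  have hS' : S = fromBlocks S.toBlocks₁₁ S.toBlocks₁₂ S.toBlocks₂₁ S.toBlocks₂₂ :=
    (fromBlocks_toBlocks S).symm
  rw [hS', fromBlocks_multiply] at h
  exact fromBlocks_inj.mp h

/-- quadratic form of a block vector. -/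
lemma dot_sum (x y : κ ⊕ τ → ℂ) :
    x ⬝ᵥ y = (x ∘ Sum.inl) ⬝ᵥ (y ∘ Sum.inl) + (x ∘ Sum.inr) ⬝ᵥ (y ∘ Sum.inr) := by
  simp [dotProduct, Fintype.sum_sum_type]

/-- key uniqueness statement behind closings. -/
lemma key_zero (hR : Rᴴ = R) (hm : m.im ≠ 0) {φ : κ ⊕ τ → ℂ}
    (h1 : (R *ᵥ φ) ∘ Sum.inl = (conj m) • (φ ∘ Sum.inl))
    (h2 : (star (φ ∘ Sum.inr) ⬝ᵥ (R *ᵥ φ) ∘ Sum.inr).im = 0) : φ ∘ Sum.inl = 0 := by
  by_contra h0
  have h3 := im_quad_eq_zero hR φ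
  rw [dot_sum, Complex.add_im, h1] at h3
  rw [show star φ ∘ Sum.inr = star (φ ∘ Sum.inr) from rfl, h2, add_zero,
    show star φ ∘ Sum.inl = star (φ ∘ Sum.inl) from rfl, dotProduct_smul, smul_eq_mul,
    Complex.mul_im, im_star_dot_self, mul_zero, zero_add] at h3
  rcases mul_eq_zero.mp h3 with h | h
  · rw [Complex.conj_im] at h
    exact hm (neg_eq_zero.mp h)
  · exact (star_dot_self_re_pos h0).ne' h

/-- `A - (conj m) B` is invertible for a closing pair `(A, B)`. -/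
lemma isUnit_pair (hm : m.im ≠ 0) {A B : Matrix τ τ ℂ} (hAB : Bᴴ * A = Aᴴ * B)
    (hker : ∀ ψ : τ → ℂ, A *ᵥ ψ = 0 → B *ᵥ ψ = 0 → ψ = 0) :
    IsUnit (A - (conj m) • B).det := by
  apply isUnit_det_of_im
  intro ψ hψ
  rw [sub_mulVec, smul_mulVec, sub_eq_zero] at hψ
  have h1 : (star ψ ⬝ᵥ (Bᴴ * A) *ᵥ ψ).im = 0 := by
    apply im_quad_eq_zero
    rw [conjTranspose_mul, conjTranspose_conjTranspose, hAB]
  rw [← mulVec_mulVec, hψ, mulVec_smul, dotProduct_smul, dotProduct_mulVec, vecMul_conjTranspose,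
    star_star, smul_eq_mul, Complex.mul_im, im_star_dot_self, mul_zero, zero_add] at h1
  have h2 : B *ᵥ ψ = 0 := by
    by_contra h0
    rcases mul_eq_zero.mp h1 with h | h
    · rw [Complex.conj_im] at h
      exact hm (neg_eq_zero.mp h)
    · exact (star_dot_self_re_pos h0).ne' h
  exact hker ψ (by rw [hψ, h2, smul_zero]) h2

/-- the closing matrix of a closing pair. -/
noncomputable def pairC (m : ℂ) (A B : Matrix τ τ ℂ) : Matrix τ τ ℂ :=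
  (A - m • B) * (A - (conj m) • B)⁻¹

/-- the closed resolvent of a closing pair. -/
noncomputable def pairR (R : Matrix (κ ⊕ τ) (κ ⊕ τ) ℂ) (A B : Matrix τ τ ℂ) : Matrix κ κ ℂ :=
  R.toBlocks₁₁ + R.toBlocks₁₂ * (B * (A - R.toBlocks₂₂ * B)⁻¹) * R.toBlocks₂₁

lemma pair_ker {A B : Matrix τ τ ℂ} (hU : IsUnit (A - R.toBlocks₂₂ * B).det)
    (ψ : τ → ℂ) (h1 : A *ᵥ ψ = 0) (h2 : B *ᵥ ψ = 0) : ψ = 0 := by
  have e4 : (A - R.toBlocks₂₂ * B)⁻¹ *ᵥ ((A - R.toBlocks₂₂ * B) *ᵥ ψ) = 0 := by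
    rw [sub_mulVec, ← mulVec_mulVec, h1, h2, mulVec_zero, sub_zero, mulVec_zero]
  rwa [mulVec_mulVec, nonsing_inv_mul _ hU, one_mulVec] at e4

lemma pairR_herm (hR : Rᴴ = R) {A B : Matrix τ τ ℂ} (hAB : Bᴴ * A = Aᴴ * B)
    (hU : IsUnit (A - R.toBlocks₂₂ * B).det) :
    (pairR R A B)ᴴ = pairR R A B := by
  obtain ⟨h1, h2, h3, h4⟩ := herm_blocks hR
  have hX : (B * (A - R.toBlocks₂₂ * B)⁻¹)ᴴ = B * (A - R.toBlocks₂₂ * B)⁻¹ := by
    set D := A - R.toBlocks₂₂ * B with hD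
    have hDH : Dᴴ * B = Bᴴ * D := by
      rw [hD, conjTranspose_sub, conjTranspose_mul, h2, Matrix.sub_mul, Matrix.mul_sub, hAB,
        Matrix.mul_assoc]
    have hUH : IsUnit (Dᴴ).det := by
      rw [det_conjTranspose]
      exact hU.star
    rw [conjTranspose_mul, conjTranspose_nonsing_inv]
    calc (Dᴴ)⁻¹ * Bᴴ = (Dᴴ)⁻¹ * (Bᴴ * D) * D⁻¹ := by
          rw [Matrix.mul_assoc, Matrix.mul_assoc Bᴴ, mul_nonsing_inv _ hU, Matrix.mul_one]
      _ = B * D⁻¹ := by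
          rw [← hDH, ← Matrix.mul_assoc, nonsing_inv_mul _ hUH, Matrix.one_mul]
  rw [pairR, conjTranspose_add, conjTranspose_mul, conjTranspose_mul, hX, h1, h3, h4,
    ← Matrix.mul_assoc]

/-- `C - S_WW` is invertible. -/
theorem isUnit_pairC_sub_block (hR : Rᴴ = R) (hm : m.im ≠ 0) {A B : Matrix τ τ ℂ}
    (hAB : Bᴴ * A = Aᴴ * B) (hU : IsUnit (A - R.toBlocks₂₂ * B).det) :
    IsUnit (pairC m A B - (cay m R).toBlocks₂₂).det := by
  have hV : IsUnit (A - (conj m) • B).det := isUnit_pair hm hAB (pair_ker hU)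
  apply isUnit_det_of_im
  intro x2 hx
  rw [sub_mulVec, sub_eq_zero] at hx
  set P := (R - (conj m) • (1 : Matrix (κ ⊕ τ) (κ ⊕ τ) ℂ))⁻¹ with hP
  set x : κ ⊕ τ → ℂ := Sum.elim 0 x2 with hxdef
  set φ : κ ⊕ τ → ℂ := P *ᵥ x with hφ
  set ψ : τ → ℂ := (A - (conj m) • B)⁻¹ *ᵥ x2 with hψdef
  have hxφ : (R - (conj m) • (1 : Matrix (κ ⊕ τ) (κ ⊕ τ) ℂ)) *ᵥ φ = x := by
    rw [hφ, mulVec_mulVec, hP, mul_nonsing_inv _ (unit_conj hR hm), one_mulVec]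
  have hψ : (A - (conj m) • B) *ᵥ ψ = x2 := by
    rw [hψdef, mulVec_mulVec, mul_nonsing_inv _ hV, one_mulVec]
  have hSx : cay m R *ᵥ x = x - (m - conj m) • φ := by
    rw [cay_eq_one_sub hR hm, sub_mulVec, one_mulVec, smul_mulVec, ← hP]
  have hCx : pairC m A B *ᵥ x2 = x2 - (m - conj m) • (B *ᵥ ψ) := by
    rw [pairC, ← mulVec_mulVec, ← hψdef, sub_mulVec, smul_mulVec]
    rw [sub_mulVec, smul_mulVec] at hψ
    rw [← hψ, sub_smul]
    abel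
  have hRφ : R *ᵥ φ = x + (conj m) • φ := by
    rw [sub_mulVec, smul_mulVec, one_mulVec, sub_eq_iff_eq_add] at hxφ
    exact hxφ
  have h2 : φ ∘ Sum.inr = B *ᵥ ψ := by
    have e1 : (cay m R *ᵥ x) ∘ Sum.inr = pairC m A B *ᵥ x2 := by
      rw [mulVec_inr, show x ∘ Sum.inl = 0 from rfl, show x ∘ Sum.inr = x2 from rfl,
        mulVec_zero, zero_add, ← hx]
    rw [hSx, hCx] at e1
    have e2 : (x - (m - conj m) • φ) ∘ Sum.inr = x2 - (m - conj m) • (φ ∘ Sum.inr) := rfl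
    rw [e2, sub_right_inj] at e1
    exact smul_right_injective _ (sub_conj_ne hm) e1
  have hK2 : (R *ᵥ φ) ∘ Sum.inr = A *ᵥ ψ := by
    rw [hRφ]
    rw [sub_mulVec, smul_mulVec, sub_eq_iff_eq_add, ← h2] at hψ
    rw [hψ]
    rfl
  have h1 : φ ∘ Sum.inl = 0 := by
    apply key_zero hR hm
    · rw [hRφ]
      ext i
      simp [hxdef]
    · rw [hK2, h2, star_mulVec, ← dotProduct_mulVec, mulVec_mulVec]
      apply im_quad_eq_zero
      rw [conjTranspose_mul, conjTranspose_conjTranspose, hAB]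
  have h5 : ψ = 0 := by
    have e3 := hK2
    rw [mulVec_inr, h1, mulVec_zero, zero_add, h2, mulVec_mulVec] at e3
    have e5 : (A - R.toBlocks₂₂ * B) *ᵥ ψ = 0 := by
      rw [sub_mulVec, e3, sub_self]
    have e4 : (A - R.toBlocks₂₂ * B)⁻¹ *ᵥ ((A - R.toBlocks₂₂ * B) *ᵥ ψ) = 0 := by
      rw [e5, mulVec_zero]
    rwa [mulVec_mulVec, nonsing_inv_mul _ hU, one_mulVec] at e4
  rw [← hψ, h5, mulVec_zero]

/-- GENERAL CLOSING. The closed system of a Hermitian `R` along a closing pair `(A, B)`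
(`B^* A = A^* B`): the new resolvent is `R₁₁ + R₁₂ B (A - R₂₂ B)⁻¹ R₂₁`, the new Cayley
transform is the closing of the old one with the matrix `C = (A - m B) (A - conj m B)⁻¹`. -/
theorem cay_pairR (hR : Rᴴ = R) (hm : m.im ≠ 0) {A B : Matrix τ τ ℂ}
    (hAB : Bᴴ * A = Aᴴ * B) (hU : IsUnit (A - R.toBlocks₂₂ * B).det) :
    cay m (pairR R A B) = closeM (cay m R) (pairC m A B) := by
  have hCU := isUnit_pairC_sub_block hR hm hAB hU
  have hV : IsUnit (A - (conj m) • B).det := isUnit_pair hm hAB (pair_ker hU)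
  apply eq_cay_of_mul (pairR_herm hR hAB hU) hm
  set Y : Matrix τ κ ℂ := (A - R.toBlocks₂₂ * B)⁻¹ * R.toBlocks₂₁ with hY
  set S := cay m R with hS
  have hKY : R.toBlocks₂₁ + R.toBlocks₂₂ * (B * Y) = A * Y := by
    have e1 : (A - R.toBlocks₂₂ * B) * Y = R.toBlocks₂₁ := by
      rw [hY, ← Matrix.mul_assoc, mul_nonsing_inv _ hU, Matrix.one_mul]
    rw [Matrix.sub_mul, sub_eq_iff_eq_add, Matrix.mul_assoc] at e1
    exact e1.symm
  have hR' : pairR R A B = R.toBlocks₁₁ + R.toBlocks₁₂ * (B * Y) := by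
    rw [pairR, hY]
    simp only [Matrix.mul_assoc]
  have hrel := cay_mul hR hm
  rw [← hS] at hrel
  obtain ⟨r11, r12, r21, r22⟩ := rel_blocks hrel
  have f1 : S.toBlocks₁₁ * (pairR R A B - (conj m) • (1 : Matrix κ κ ℂ)) +
      S.toBlocks₁₂ * ((A - (conj m) • B) * Y) =
      pairR R A B - m • (1 : Matrix κ κ ℂ) := by
    have e2 : R.toBlocks₁₁ - m • (1 : Matrix κ κ ℂ) + R.toBlocks₁₂ * (B * Y) =
        pairR R A B - m • (1 : Matrix κ κ ℂ) := by rw [hR']; abel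
    rw [← e2, ← r11, ← r12, hR', Matrix.sub_mul, ← hKY]
    simp only [Matrix.mul_add, Matrix.add_mul, Matrix.mul_sub, Matrix.sub_mul, Matrix.mul_assoc,
      Matrix.smul_mul, Matrix.mul_smul, Matrix.mul_one]
    abel
  have f2 : S.toBlocks₂₁ * (pairR R A B - (conj m) • (1 : Matrix κ κ ℂ)) =
      (pairC m A B - S.toBlocks₂₂) * ((A - (conj m) • B) * Y) := by
    have e3 : pairC m A B * ((A - (conj m) • B) * Y) =
        R.toBlocks₂₁ + (R.toBlocks₂₂ - m • (1 : Matrix τ τ ℂ)) * (B * Y) := by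
      rw [pairC, Matrix.mul_assoc, ← Matrix.mul_assoc (A - (conj m) • B)⁻¹,
        nonsing_inv_mul _ hV, Matrix.one_mul, Matrix.sub_mul, Matrix.sub_mul, ← hKY]
      simp only [Matrix.smul_mul, Matrix.one_mul]
      abel
    rw [Matrix.sub_mul, e3, ← r21, ← r22, hR', Matrix.sub_mul A, ← hKY]
    simp only [Matrix.mul_add, Matrix.add_mul, Matrix.mul_sub, Matrix.sub_mul, Matrix.mul_assoc,
      Matrix.smul_mul, Matrix.mul_smul, Matrix.mul_one]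
    abel
  rw [closeM, Matrix.add_mul, Matrix.mul_assoc _ S.toBlocks₂₁, f2, Matrix.mul_assoc,
    ← Matrix.mul_assoc (pairC m A B - S.toBlocks₂₂)⁻¹, nonsing_inv_mul _ hCU, Matrix.one_mul, f1]

/-- compression: `1 - S_WW` is always invertible. -/
theorem isUnit_one_sub_block (hR : Rᴴ = R) (hm : m.im ≠ 0) :
    IsUnit (1 - (cay m R).toBlocks₂₂).det := by
  apply isUnit_det_of_im
  intro x2 hx
  rw [sub_mulVec, one_mulVec, sub_eq_zero] at hx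
  set P := (R - (conj m) • (1 : Matrix (κ ⊕ τ) (κ ⊕ τ) ℂ))⁻¹ with hP
  set x : κ ⊕ τ → ℂ := Sum.elim 0 x2 with hxdef
  set φ : κ ⊕ τ → ℂ := P *ᵥ x with hφ
  have hxφ : (R - (conj m) • (1 : Matrix (κ ⊕ τ) (κ ⊕ τ) ℂ)) *ᵥ φ = x := by
    rw [hφ, mulVec_mulVec, hP, mul_nonsing_inv _ (unit_conj hR hm), one_mulVec]
  have hSx : cay m R *ᵥ x = x - (m - conj m) • φ := by
    rw [cay_eq_one_sub hR hm, sub_mulVec, one_mulVec, smul_mulVec, ← hP]
  have hRφ : R *ᵥ φ = x + (conj m) • φ := by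
    rw [sub_mulVec, smul_mulVec, one_mulVec, sub_eq_iff_eq_add] at hxφ
    exact hxφ
  have h2 : φ ∘ Sum.inr = 0 := by
    have e1 : (cay m R *ᵥ x) ∘ Sum.inr = x2 := by
      rw [mulVec_inr, show x ∘ Sum.inl = 0 from rfl, show x ∘ Sum.inr = x2 from rfl,
        mulVec_zero, zero_add, ← hx]
    rw [hSx] at e1
    have e2 : (x - (m - conj m) • φ) ∘ Sum.inr = x2 - (m - conj m) • (φ ∘ Sum.inr) := rfl
    rw [e2, sub_eq_self] at e1
    exact (smul_eq_zero.mp e1).resolve_left (sub_conj_ne hm)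
  have h1 : φ ∘ Sum.inl = 0 := by
    apply key_zero hR hm
    · rw [hRφ]
      ext i
      simp [hxdef]
    · rw [h2, star_zero, zero_dotProduct]
      rfl
  have h3 : φ = 0 := by
    ext i
    rcases i with i | i
    · exact congrFun h1 i
    · exact congrFun h2 i
  have h4 : x = 0 := by rw [← hxφ, h3, mulVec_zero]
  ext i
  exact congrFun h4 (Sum.inr i)

/-- closing: `C - S_WW` is invertible. -/
theorem isUnit_cay_sub_block (hR : Rᴴ = R) (hm : m.im ≠ 0) {K : Matrix τ τ ℂ} (hK : Kᴴ = K)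
    (hU : IsUnit (R.toBlocks₂₂ - K).det) :
    IsUnit (cay m K - (cay m R).toBlocks₂₂).det := by
  apply isUnit_det_of_im
  intro x2 hx
  rw [sub_mulVec, sub_eq_zero] at hx
  set P := (R - (conj m) • (1 : Matrix (κ ⊕ τ) (κ ⊕ τ) ℂ))⁻¹ with hP
  set x : κ ⊕ τ → ℂ := Sum.elim 0 x2 with hxdef
  set φ : κ ⊕ τ → ℂ := P *ᵥ x with hφ
  set Q := (K - (conj m) • (1 : Matrix τ τ ℂ))⁻¹ with hQ
  have hxφ : (R - (conj m) • (1 : Matrix (κ ⊕ τ) (κ ⊕ τ) ℂ)) *ᵥ φ = x := by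
    rw [hφ, mulVec_mulVec, hP, mul_nonsing_inv _ (unit_conj hR hm), one_mulVec]
  have hψ : (K - (conj m) • (1 : Matrix τ τ ℂ)) *ᵥ (Q *ᵥ x2) = x2 := by
    rw [mulVec_mulVec, hQ, mul_nonsing_inv _ (unit_conj hK hm), one_mulVec]
  have hSx : cay m R *ᵥ x = x - (m - conj m) • φ := by
    rw [cay_eq_one_sub hR hm, sub_mulVec, one_mulVec, smul_mulVec, ← hP]
  have hCx : cay m K *ᵥ x2 = x2 - (m - conj m) • (Q *ᵥ x2) := by
    rw [cay_eq_one_sub hK hm, sub_mulVec, one_mulVec, smul_mulVec, ← hQ]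
  have hRφ : R *ᵥ φ = x + (conj m) • φ := by
    rw [sub_mulVec, smul_mulVec, one_mulVec, sub_eq_iff_eq_add] at hxφ
    exact hxφ
  have h2 : φ ∘ Sum.inr = Q *ᵥ x2 := by
    have e1 : (cay m R *ᵥ x) ∘ Sum.inr = cay m K *ᵥ x2 := by
      rw [mulVec_inr, show x ∘ Sum.inl = 0 from rfl, show x ∘ Sum.inr = x2 from rfl,
        mulVec_zero, zero_add, ← hx]
    rw [hSx, hCx] at e1
    have e2 : (x - (m - conj m) • φ) ∘ Sum.inr = x2 - (m - conj m) • (φ ∘ Sum.inr) := rfl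
    rw [e2, sub_right_inj] at e1
    exact smul_right_injective _ (sub_conj_ne hm) e1
  have hK2 : (R *ᵥ φ) ∘ Sum.inr = K *ᵥ (φ ∘ Sum.inr) := by
    rw [hRφ]
    rw [sub_mulVec, smul_mulVec, one_mulVec, sub_eq_iff_eq_add, ← h2] at hψ
    rw [hψ]
    rfl
  have h1 : φ ∘ Sum.inl = 0 := by
    apply key_zero hR hm
    · rw [hRφ]
      ext i
      simp [hxdef]
    · rw [hK2]
      exact im_quad_eq_zero hK _
  have h5 : φ ∘ Sum.inr = 0 := by
    have e3 := hK2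
    rw [mulVec_inr, h1, mulVec_zero, zero_add, ← sub_eq_zero, ← sub_mulVec] at e3
    have e4 : (R.toBlocks₂₂ - K)⁻¹ *ᵥ ((R.toBlocks₂₂ - K) *ᵥ (φ ∘ Sum.inr)) = 0 := by
      rw [e3, mulVec_zero]
    rwa [mulVec_mulVec, nonsing_inv_mul _ hU, one_mulVec] at e4
  have h3 : φ = 0 := by
    ext i
    rcases i with i | i
    · exact congrFun h1 i
    · exact congrFun h5 i
  have h4 : x = 0 := by rw [← hxφ, h3, mulVec_zero]
  ext i
  exact congrFun h4 (Sum.inr i)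

/-- CLOSING: the Cayley transform of the closed resolvent. -/
theorem cay_closeR (hR : Rᴴ = R) (hm : m.im ≠ 0) {K : Matrix τ τ ℂ} (hK : Kᴴ = K)
    (hU : IsUnit (R.toBlocks₂₂ - K).det) :
    cay m (closeR R K) = closeM (cay m R) (cay m K) := by
  have hCU := isUnit_cay_sub_block hR hm hK hU
  apply eq_cay_of_mul (closeR_herm hR hK) hm
  set Y : Matrix τ κ ℂ := -((R.toBlocks₂₂ - K)⁻¹ * R.toBlocks₂₁) with hY
  set S := cay m R with hS
  have hKY : R.toBlocks₂₁ + R.toBlocks₂₂ * Y = K * Y := by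
    have e1 : (R.toBlocks₂₂ - K) * Y = - R.toBlocks₂₁ := by
      rw [hY, Matrix.mul_neg, ← Matrix.mul_assoc, mul_nonsing_inv _ hU, Matrix.one_mul]
    rw [Matrix.sub_mul, sub_eq_iff_eq_add] at e1
    rw [e1]
    abel
  have hR' : closeR R K = R.toBlocks₁₁ + R.toBlocks₁₂ * Y := by
    rw [closeR, hY, Matrix.mul_neg, ← Matrix.mul_assoc, sub_eq_add_neg]
  -- the block column `Φ = (1, Y)`
  have hrel := cay_mul hR hm
  rw [← hS] at hrel
  obtain ⟨r11, r12, r21, r22⟩ := rel_blocks hrel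
  -- first row times `Φ`
  have f1 : S.toBlocks₁₁ * (closeR R K - (conj m) • (1 : Matrix κ κ ℂ)) +
      S.toBlocks₁₂ * ((K - (conj m) • (1 : Matrix τ τ ℂ)) * Y) =
      closeR R K - m • (1 : Matrix κ κ ℂ) := by
    have e2 : R.toBlocks₁₁ - m • (1 : Matrix κ κ ℂ) + R.toBlocks₁₂ * Y =
        closeR R K - m • (1 : Matrix κ κ ℂ) := by rw [hR']; abel
    rw [← e2, ← r11, ← r12, hR', Matrix.sub_mul, ← hKY]
    simp only [Matrix.mul_add, Matrix.add_mul, Matrix.mul_sub, Matrix.sub_mul, Matrix.mul_assoc,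
      Matrix.smul_mul, Matrix.mul_smul, Matrix.one_mul, Matrix.mul_one]
    abel
  have f2 : S.toBlocks₂₁ * (closeR R K - (conj m) • (1 : Matrix κ κ ℂ)) =
      (cay m K - S.toBlocks₂₂) * ((K - (conj m) • (1 : Matrix τ τ ℂ)) * Y) := by
    have e3 : cay m K * ((K - (conj m) • (1 : Matrix τ τ ℂ)) * Y) =
        R.toBlocks₂₁ + (R.toBlocks₂₂ - m • (1 : Matrix τ τ ℂ)) * Y := by
      rw [← Matrix.mul_assoc, cay_mul hK hm, Matrix.sub_mul, Matrix.sub_mul, ← hKY]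
      abel
    rw [Matrix.sub_mul, e3, ← r21, ← r22, hR', Matrix.sub_mul K, ← hKY]
    simp only [Matrix.mul_add, Matrix.add_mul, Matrix.mul_sub, Matrix.sub_mul, Matrix.mul_assoc,
      Matrix.smul_mul, Matrix.mul_smul, Matrix.one_mul, Matrix.mul_one]
    abel
  rw [closeM, Matrix.add_mul, Matrix.mul_assoc _ S.toBlocks₂₁, f2, Matrix.mul_assoc,
    ← Matrix.mul_assoc (cay m K - S.toBlocks₂₂)⁻¹, nonsing_inv_mul _ hCU, Matrix.one_mul, f1]

/-- COMPRESSION: the Cayley transform of a compression. -/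
theorem cay_compress (hR : Rᴴ = R) (hm : m.im ≠ 0) :
    cay m R.toBlocks₁₁ = closeM (cay m R) 1 := by
  have hCU := isUnit_one_sub_block (R := R) hR hm
  apply eq_cay_of_mul (herm_blocks hR).1 hm
  set S := cay m R with hS
  have hrel := cay_mul hR hm
  rw [← hS] at hrel
  obtain ⟨r11, r12, r21, r22⟩ := rel_blocks hrel
  have f2 : S.toBlocks₂₁ * (R.toBlocks₁₁ - (conj m) • (1 : Matrix κ κ ℂ)) =
      (1 - S.toBlocks₂₂) * R.toBlocks₂₁ := by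
    rw [Matrix.sub_mul, Matrix.one_mul, eq_sub_iff_add_eq, r21]
  rw [closeM, Matrix.add_mul, Matrix.mul_assoc _ S.toBlocks₂₁, f2, Matrix.mul_assoc,
    ← Matrix.mul_assoc (1 - S.toBlocks₂₂)⁻¹, nonsing_inv_mul _ hCU, Matrix.one_mul, r11]

end blocks

end Vale.Agent.P156.A
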