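import Vale.Agent.P156.H574.Equi

/-!
P156, part A: continuity of the Cayley transform and of its inverse; the inverse on symmetric
unitary matrices.
-/

set_option linter.unusedSectionVars false

namespace Vale.Agent.P156.A

open Matrix Complex Topology Filter
open scoped ComplexConjugate ComplexOrder

noncomputable section

variable {ι : Type*} [Fintype ι] [DecidableEq ι]

lemma continuousOn_inv : ContinuousOn (fun M : Matrix ι ι ℂ => M⁻¹) {M | IsUnit M.det} := by
  intro M hM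
  have h0 : M.det ≠ 0 := (isUnit_iff_ne_zero.mp hM)
  have h1 : (fun M : Matrix ι ι ℂ => M⁻¹) = fun M => (M.det)⁻¹ • M.adjugate := by
    ext1 M
    rw [Matrix.inv_def, Ring.inverse_eq_inv']
  rw [h1]
  apply ContinuousAt.continuousWithinAt
  have hd : Continuous (fun M : Matrix ι ι ℂ => M.det) := continuous_id.matrix_det
  have ha : Continuous (fun M : Matrix ι ι ℂ => M.adjugate) := continuous_id.matrix_adjugate
  exact (hd.continuousAt.inv₀ h0).smul ha.continuousAt

/-- the Cayley transform is continuous jointly in `(m, R)`, `Im m ≠ 0`, `R` Hermitian. -/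
theorem continuousOn_cay :
    ContinuousOn (fun p : ℂ × Matrix ι ι ℂ => cay p.1 p.2) {p | p.1.im ≠ 0 ∧ p.2ᴴ = p.2} := by
  have h1 : Continuous (fun p : ℂ × Matrix ι ι ℂ => p.2 - p.1 • (1 : Matrix ι ι ℂ)) :=
    continuous_snd.sub (continuous_fst.smul continuous_const)
  have h2 : Continuous (fun p : ℂ × Matrix ι ι ℂ => p.2 - (conj p.1) • (1 : Matrix ι ι ℂ)) :=
    continuous_snd.sub ((Complex.continuous_conj.comp continuous_fst).smul continuous_const)
  refine h1.continuousOn.mul (continuousOn_inv.comp h2.continuousOn ?_)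
  rintro ⟨m, R⟩ ⟨hm, hR⟩
  exact unit_conj hR hm

theorem continuous_cay_of {X : Type*} [TopologicalSpace X] {f : X → ℂ} {g : X → Matrix ι ι ℂ}
    (hf : Continuous f) (hg : Continuous g) (hf' : ∀ x, (f x).im ≠ 0) (hg' : ∀ x, (g x)ᴴ = g x) :
    Continuous (fun x => cay (f x) (g x)) :=
  continuousOn_cay.comp_continuous (hf.prodMk hg) (fun x => ⟨hf' x, hg' x⟩)

/-- the inverse transform is continuous where `det (1 - S) ≠ 0`. -/
theorem continuousOn_uncay (m : ℂ) :
    ContinuousOn (fun S : Matrix ι ι ℂ => uncay m S) {S | IsUnit (1 - S).det} := by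
  have h1 : Continuous (fun S : Matrix ι ι ℂ => m • (1 : Matrix ι ι ℂ) - (conj m) • S) :=
    continuous_const.sub (continuous_const_smul _)
  have h2 : Continuous (fun S : Matrix ι ι ℂ => 1 - S) := continuous_const.sub continuous_id
  exact h1.continuousOn.mul (continuousOn_inv.comp h2.continuousOn fun S hS => hS)

section inverse

variable {m : ℂ} {S : Matrix ι ι ℂ}

lemma lin_comm (a b : ℂ) (S : Matrix ι ι ℂ) : (a • (1 : Matrix ι ι ℂ) - b • S) * (1 - S) =
    (1 - S) * (a • (1 : Matrix ι ι ℂ) - b • S) := by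
  simp only [Matrix.sub_mul, Matrix.mul_sub, Matrix.smul_mul, Matrix.mul_smul, Matrix.one_mul,
    Matrix.mul_one, smul_sub]
  abel

lemma lin_inv_comm (a b : ℂ) (hS : IsUnit (1 - S).det) :
    (1 - S)⁻¹ * (a • (1 : Matrix ι ι ℂ) - b • S) =
      (a • (1 : Matrix ι ι ℂ) - b • S) * (1 - S)⁻¹ := by
  calc (1 - S)⁻¹ * (a • (1 : Matrix ι ι ℂ) - b • S)
      = (1 - S)⁻¹ * ((a • (1 : Matrix ι ι ℂ) - b • S) * (1 - S)) * (1 - S)⁻¹ := by
        rw [Matrix.mul_assoc, Matrix.mul_assoc _ (1 - S), mul_nonsing_inv _ hS, Matrix.mul_one]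
    _ = _ := by rw [lin_comm, ← Matrix.mul_assoc, nonsing_inv_mul _ hS, Matrix.one_mul]

lemma uncay_mul (hS : IsUnit (1 - S).det) :
    uncay m S * (1 - S) = m • (1 : Matrix ι ι ℂ) - (conj m) • S := by
  rw [uncay, Matrix.mul_assoc, nonsing_inv_mul _ hS, Matrix.mul_one]

lemma uncay_herm (hU : S ∈ unitaryGroup ι ℂ) (hS : IsUnit (1 - S).det) :
    (uncay m S)ᴴ = uncay m S := by
  have h1 : Sᴴ * S = 1 := mem_unitaryGroup_iff'.mp hU
  have h1' : S * Sᴴ = 1 := mem_unitaryGroup_iff.mp hU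
  have h2 : (1 - S)ᴴ = -(Sᴴ * (1 - S)) := by
    rw [conjTranspose_sub, conjTranspose_one, Matrix.mul_sub, h1, Matrix.mul_one]
    abel
  have hS' : IsUnit ((1 - S)ᴴ).det := by
    rw [det_conjTranspose]
    exact hS.star
  have h3 : (uncay m S)ᴴ = ((1 - S)ᴴ)⁻¹ * ((conj m) • (1 : Matrix ι ι ℂ) - m • Sᴴ) := by
    have e1 : (m • (1 : Matrix ι ι ℂ) - (conj m) • S)ᴴ =
        (conj m) • (1 : Matrix ι ι ℂ) - m • Sᴴ := by
      rw [conjTranspose_sub, conjTranspose_smul, conjTranspose_smul, conjTranspose_one]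
      simp
    rw [uncay, conjTranspose_mul, conjTranspose_nonsing_inv, e1]
  have hSd : IsUnit S.det := by
    have := congrArg det h1'
    rw [det_mul, det_one] at this
    exact IsUnit.of_mul_eq_one _ this
  -- `((1-S)^H)⁻¹ = -(1-S)⁻¹ S`
  have h4 : ((1 - S)ᴴ)⁻¹ = -((1 - S)⁻¹ * S) := by
    apply inv_eq_right_inv
    rw [h2, Matrix.neg_mul, Matrix.mul_neg, neg_neg, Matrix.mul_assoc,
      ← Matrix.mul_assoc (1 - S), mul_nonsing_inv _ hS, Matrix.one_mul, h1]
  have h5 : S * ((conj m) • (1 : Matrix ι ι ℂ) - m • Sᴴ) = (conj m) • S - m • (1 : Matrix ι ι ℂ) := by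
    rw [Matrix.mul_sub, Matrix.mul_smul, Matrix.mul_smul, Matrix.mul_one, h1']
  have h6 := lin_inv_comm m (conj m) hS
  rw [h3, h4, Matrix.neg_mul, Matrix.mul_assoc, h5, uncay, ← h6, ← Matrix.mul_neg]
  congr 1
  abel

lemma uncay_transpose (hT : Sᵀ = S) (hS : IsUnit (1 - S).det) :
    (uncay m S)ᵀ = uncay m S := by
  have h6 := lin_inv_comm m (conj m) hS
  rw [uncay, transpose_mul, transpose_nonsing_inv, transpose_sub, transpose_sub, transpose_smul,
    transpose_smul, transpose_one, hT, h6]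

/-- the inverse Cayley transform of a symmetric unitary matrix is real symmetric. -/
theorem uncay_realSymm (hU : S ∈ unitaryGroup ι ℂ) (hT : Sᵀ = S) (hS : IsUnit (1 - S).det) :
    RealSymm (uncay m S) := ⟨uncay_herm hU hS, uncay_transpose hT hS⟩

theorem cay_uncay (hm : m.im ≠ 0) (hU : S ∈ unitaryGroup ι ℂ) (hS : IsUnit (1 - S).det) :
    cay m (uncay m S) = S := by
  apply eq_cay_of_mul (uncay_herm hU hS) hm
  have h1 := uncay_mul (m := m) hS
  have h6 : (1 - S) * uncay m S = m • (1 : Matrix ι ι ℂ) - (conj m) • S := by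
    rw [uncay, ← Matrix.mul_assoc, ← lin_comm, Matrix.mul_assoc, mul_nonsing_inv _ hS,
      Matrix.mul_one]
  rw [Matrix.sub_mul, Matrix.one_mul, sub_eq_iff_eq_add] at h6
  rw [Matrix.mul_sub, Matrix.mul_smul, Matrix.mul_one]
  calc S * uncay m S - (conj m) • S
      = (m • (1 : Matrix ι ι ℂ) - (conj m) • S + S * uncay m S) - m • (1 : Matrix ι ι ℂ) := by abel
    _ = uncay m S - m • (1 : Matrix ι ι ℂ) := by rw [← h6]

end inverse

end

end Vale.Agent.P156.A
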