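import Vale.Agent.P156.H877.E13

/-!
P156, block D4, inequality (E4): entropy of a smoothed star law whose last leaf is determined by
the other coordinates up to noise.
-/

open MeasureTheory Matrix Filter Topology ProbabilityTheory
open scoped ENNReal

noncomputable section

set_option linter.unusedSectionVars false

namespace Vale.Agent.P156.H574

open Vale.Agent.P156.H877

section split

variable {ι ι' κ : Type*} [Fintype ι] [Fintype ι'] [Fintype κ]

/-- splitting the coordinates is measure preserving. -/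
lemma mp_split (e : ι' ⊕ κ ≃ ι) :
    MeasurePreserving (fun z : ι → ℝ => (fun i => z (e (Sum.inl i)), fun j => z (e (Sum.inr j))))
      (volume : Measure (ι → ℝ)) ((volume : Measure (ι' → ℝ)).prod (volume : Measure (κ → ℝ))) := by
  have h1 := (volume_measurePreserving_piCongrLeft (fun _ : ι => ℝ) e).symm
  have h2 := measurePreserving_sumPiEquivProdPi (fun _ : ι' ⊕ κ => (volume : Measure ℝ))
  have h3 := h2.comp h1
  exact h3

lemma lintegral_split (e : ι' ⊕ κ ≃ ι) {F : (ι' → ℝ) × (κ → ℝ) → ℝ≥0∞} (hF : Measurable F) :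
    ∫⁻ z : ι → ℝ, F (fun i => z (e (Sum.inl i)), fun j => z (e (Sum.inr j))) =
      ∫⁻ u : ι' → ℝ, ∫⁻ v : κ → ℝ, F (u, v) := by
  rw [(mp_split e).lintegral_comp hF, lintegral_prod _ hF.aemeasurable]

end split

section gibbs

variable {ι ι' κ : Type*} [Fintype ι] [DecidableEq ι] [Fintype ι'] [DecidableEq ι'] [Fintype κ]
  [DecidableEq κ]

lemma lintegral_comparison (e : ι' ⊕ κ ≃ ι) {X' : Measure (ι' → ℝ)} [IsProbabilityMeasure X']
    {S' : Matrix ι' ι' ℝ} (hS' : S'.PosDef) {T : Matrix κ κ ℝ} (hT : T.PosDef)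
    {L : (ι' → ℝ) → κ → ℝ} (hL : Continuous L) :
    ∫⁻ z : ι → ℝ, ENNReal.ofReal (dens X' S' (fun i => z (e (Sum.inl i))) *
      gk T ((fun j => z (e (Sum.inr j))) + L (fun i => z (e (Sum.inl i))))) = 1 := by
  have hF : Measurable (fun p : (ι' → ℝ) × (κ → ℝ) =>
      ENNReal.ofReal (dens X' S' p.1 * gk T (p.2 + L p.1))) := by
    have h1 : Continuous (fun p : (ι' → ℝ) × (κ → ℝ) => dens X' S' p.1 * gk T (p.2 + L p.1)) :=
      ((continuous_dens hS').comp continuous_fst).mul
        ((continuous_gk T).comp (continuous_snd.add (hL.comp continuous_fst)))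
    exact h1.measurable.ennreal_ofReal
  rw [lintegral_split e hF]
  have h2 : ∀ u : ι' → ℝ, ∫⁻ v : κ → ℝ, ENNReal.ofReal (dens X' S' u * gk T (v + L u)) =
      ENNReal.ofReal (dens X' S' u) := by
    intro u
    have h3 : ∀ v : κ → ℝ, ENNReal.ofReal (dens X' S' u * gk T (v + L u)) =
        ENNReal.ofReal (dens X' S' u) * ENNReal.ofReal (gk T (v + L u)) :=
      fun v => ENNReal.ofReal_mul (dens_pos hS' u).le
    simp only [h3]
    rw [lintegral_const_mul _ (by
      have : Continuous fun v : κ → ℝ => gk T (v + L u) := by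
        exact (continuous_gk T).comp (continuous_id.add continuous_const)
      exact this.measurable.ennreal_ofReal)]
    rw [lintegral_add_right_eq_self (fun v : κ → ℝ => ENNReal.ofReal (gk T v)) (L u),
      lintegral_gk hT, mul_one]
  simp only [h2]
  exact lintegral_dens hS'

/-- Gibbs inequality for two positive densities. -/
lemma gibbs {f g : (ι → ℝ) → ℝ} (hf0 : ∀ z, 0 < f z) (hg0 : ∀ z, 0 < g z)
    (hf : Integrable f) (hg : Integrable g) (hfg : ∫ z, g z ≤ ∫ z, f z)
    (h1 : Integrable fun z => Real.negMulLog (f z))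
    (h2 : Integrable fun z => Real.log (g z) * f z) :
    ∫ z, Real.negMulLog (f z) ≤ -∫ z, Real.log (g z) * f z := by
  have h3 : ∀ z, Real.negMulLog (f z) ≤ -(Real.log (g z) * f z) + (g z - f z) := by
    intro z
    have h4 := Real.log_le_sub_one_of_pos (div_pos (hg0 z) (hf0 z))
    rw [Real.log_div (hg0 z).ne' (hf0 z).ne'] at h4
    have h5 := mul_le_mul_of_nonneg_left h4 (hf0 z).le
    have h6 : f z * (g z / f z - 1) = g z - f z := by
      rw [mul_sub_one, mul_div_cancel₀ _ (hf0 z).ne']
    rw [h6] at h5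
    rw [Real.negMulLog]
    nlinarith
  have h7 : Integrable fun z => -(Real.log (g z) * f z) := h2.neg
  have h8 : Integrable fun z => g z - f z := hg.sub hf
  calc ∫ z, Real.negMulLog (f z) ≤ ∫ z, (-(Real.log (g z) * f z) + (g z - f z)) :=
        integral_mono h1 (h7.add h8) h3
    _ = -(∫ z, Real.log (g z) * f z) + ((∫ z, g z) - ∫ z, f z) := by
        rw [integral_add h7 h8, integral_neg, integral_sub hg hf]
    _ ≤ _ := by linarith

end gibbs

section moments

variable {κ : Type*} [Fintype κ]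

lemma integrable_sq_gauss : Integrable (fun x : ℝ => x ^ 2) (gaussianReal 0 1) :=
  (memLp_id_gaussianReal 2).integrable_sq

lemma integral_sq_gauss : ∫ x : ℝ, x ^ 2 ∂(gaussianReal 0 1) = 1 := by
  have h1 := variance_id_gaussianReal (μ := 0) (v := 1)
  rw [variance_eq_integral measurable_id.aemeasurable] at h1
  have h2 : ∫ x : ℝ, x ∂(gaussianReal 0 1) = 0 := integral_id_gaussianReal
  simp only [id] at h1
  rw [h2] at h1
  simpa using h1

lemma integrable_sq_sg (a : κ) : Integrable (fun x : κ → ℝ => x a ^ 2) (sg κ) := by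
  have h := (measurePreserving_eval (fun _ : κ => gaussianReal 0 1) a)
  exact (h.integrable_comp integrable_sq_gauss.aestronglyMeasurable).mpr integrable_sq_gauss

lemma integral_sq_sg (a : κ) : ∫ x : κ → ℝ, x a ^ 2 ∂(sg κ) = 1 := by
  rw [← integral_sq_gauss]
  exact integral_comp_eval (μ := fun _ : κ => gaussianReal 0 1) (i := a)
    (f := fun x : ℝ => x ^ 2) integrable_sq_gauss.aestronglyMeasurable

end moments

section law

variable {ι κ : Type*} [Fintype ι] [DecidableEq ι] [Fintype κ] [DecidableEq κ]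
  {X : Measure (ι → ℝ)} [IsProbabilityMeasure X] {S : Matrix ι ι ℝ}

lemma posDef_smul_one {c : ℝ} (hc : 0 < c) : (c • (1 : Matrix κ κ ℝ)).PosDef :=
  Matrix.PosDef.one.smul hc

/-- law of a linear statistic that vanishes on `X`. -/
lemma map_lin_sm (hS : S.PosDef) (Rm : Matrix κ ι ℝ) (hRX : ∀ᵐ x ∂X, Rm *ᵥ x = 0) {c : ℝ}
    (hc : 0 < c) (hRS : Rm * S * Rmᵀ = c • (1 : Matrix κ κ ℝ)) :
    (sm X S).map (fun z => Rm *ᵥ z) =
      (sg κ).map (fun y => ((√c • (1 : Matrix κ κ ℝ)) : Matrix κ κ ℝ) *ᵥ y) := by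
  obtain ⟨B, hB, -⟩ := exists_sqrt hS
  have hm : Measurable fun p : (ι → ℝ) × (ι → ℝ) => p.1 + B *ᵥ p.2 := by
    have : Continuous fun p : (ι → ℝ) × (ι → ℝ) => p.1 + B *ᵥ p.2 := by fun_prop
    exact this.measurable
  have hmR : Measurable fun z : ι → ℝ => Rm *ᵥ z := (continuous_mulVec' Rm).measurable
  have hmRB : Measurable fun z : ι → ℝ => (Rm * B) *ᵥ z := (continuous_mulVec' (Rm * B)).measurable
  rw [sm_eq_map B hS hB, Measure.map_map hmR hm]
  have h1 : ((fun z : ι → ℝ => Rm *ᵥ z) ∘ fun p : (ι → ℝ) × (ι → ℝ) => p.1 + B *ᵥ p.2) =ᵐ[X.prod (sg ι)]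
      ((fun z : ι → ℝ => (Rm * B) *ᵥ z) ∘ Prod.snd) := by
    have h2 : ∀ᵐ p ∂(X.prod (sg ι)), Rm *ᵥ p.1 = 0 :=
      Measure.quasiMeasurePreserving_fst.ae hRX
    filter_upwards [h2] with p hp
    change Rm *ᵥ (p.1 + B *ᵥ p.2) = (Rm * B) *ᵥ p.2
    rw [mulVec_add, hp, zero_add, mulVec_mulVec]
  rw [Measure.map_congr h1, ← Measure.map_map hmRB measurable_snd, Measure.map_snd_prod,
    measure_univ, one_smul]
  apply map_sg_congr
  rw [transpose_mul, ← Matrix.mul_assoc, Matrix.mul_assoc Rm B, hB, hRS, transpose_smul,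
    transpose_one, smul_mul_smul_comm, Matrix.one_mul, Real.mul_self_sqrt hc.le]

lemma integrable_sum_sq (c : ℝ) : Integrable (fun y : κ → ℝ =>
    ∑ a, (((√c • (1 : Matrix κ κ ℝ)) : Matrix κ κ ℝ) *ᵥ y) a ^ 2) (sg κ) := by
  have h : (fun y : κ → ℝ => ∑ a, (((√c • (1 : Matrix κ κ ℝ)) : Matrix κ κ ℝ) *ᵥ y) a ^ 2) =
      fun y => ∑ a, √c ^ 2 * y a ^ 2 := by
    ext y
    refine Finset.sum_congr rfl fun a _ => ?_
    rw [smul_mulVec, one_mulVec, Pi.smul_apply, smul_eq_mul, mul_pow]
  rw [h]
  exact integrable_finsetSum _ fun a _ => (integrable_sq_sg a).const_mul _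

lemma integral_sum_sq {c : ℝ} (hc : 0 < c) : ∫ y : κ → ℝ,
    ∑ a, (((√c • (1 : Matrix κ κ ℝ)) : Matrix κ κ ℝ) *ᵥ y) a ^ 2 ∂(sg κ) =
      Fintype.card κ * c := by
  have h : (fun y : κ → ℝ => ∑ a, (((√c • (1 : Matrix κ κ ℝ)) : Matrix κ κ ℝ) *ᵥ y) a ^ 2) =
      fun y => ∑ a, √c ^ 2 * y a ^ 2 := by
    ext y
    refine Finset.sum_congr rfl fun a _ => ?_
    rw [smul_mulVec, one_mulVec, Pi.smul_apply, smul_eq_mul, mul_pow]
  rw [h, integral_finsetSum _ fun a _ => (integrable_sq_sg a).const_mul _]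
  simp only [integral_const_mul, integral_sq_sg, mul_one, Real.sq_sqrt hc.le, Finset.sum_const,
    Finset.card_univ, nsmul_eq_mul]

lemma log_gk_smul {c : ℝ} (hc : 0 < c) (y : κ → ℝ) :
    Real.log (gk (c • (1 : Matrix κ κ ℝ)) y) =
      -(Fintype.card κ / 2 * Real.log (2 * Real.pi * c)) - (2 * c)⁻¹ * ∑ a, y a ^ 2 := by
  have h1 : (c • (1 : Matrix κ κ ℝ))⁻¹ = c⁻¹ • (1 : Matrix κ κ ℝ) := by
    apply inv_eq_right_inv
    rw [smul_mul_smul_comm, Matrix.one_mul, mul_inv_cancel₀ hc.ne', one_smul]
  have h2 : (c • (1 : Matrix κ κ ℝ)).det = c ^ Fintype.card κ := by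
    rw [det_smul, det_one, mul_one]
  have h3 : y ⬝ᵥ ((c⁻¹ • (1 : Matrix κ κ ℝ)) *ᵥ y) = c⁻¹ * ∑ a, y a ^ 2 := by
    rw [smul_mulVec, one_mulVec, dotProduct_smul, smul_eq_mul, dotProduct]
    congr 1
    exact Finset.sum_congr rfl fun a _ => (sq (y a)).symm
  have hp : (0 : ℝ) < (2 * Real.pi) ^ Fintype.card κ * c ^ Fintype.card κ := by positivity
  rw [gk, h1, h2, h3, Real.log_mul (inv_ne_zero (Real.sqrt_pos.mpr hp).ne') (Real.exp_pos _).ne',
    Real.log_exp, Real.log_inv, Real.log_sqrt hp.le, ← mul_pow, Real.log_pow, mul_inv]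
  ring

end law

section main

variable {ι ι' κ : Type*} [Fintype ι] [DecidableEq ι] [Fintype ι'] [DecidableEq ι'] [Fintype κ]
  [DecidableEq κ] {X : Measure (ι → ℝ)} [IsProbabilityMeasure X] {S : Matrix ι ι ℝ}

/-- the general form of (E4). -/
theorem hh_split_le (e : ι' ⊕ κ ≃ ι) (hS : S.PosDef) (hX : Integrable (fun x => ‖x‖ ^ 2) X)
    (Rm : Matrix κ ι ℝ) (L : (ι' → ℝ) → κ → ℝ) (hL : Continuous L)
    (hR : ∀ z : ι → ℝ, Rm *ᵥ z = (fun j => z (e (Sum.inr j))) + L (fun i => z (e (Sum.inl i))))
    (hRX : ∀ᵐ x ∂X, Rm *ᵥ x = 0) {c : ℝ} (hc : 0 < c)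
    (hRS : Rm * S * Rmᵀ = c • (1 : Matrix κ κ ℝ)) :
    hh X S ≤ hh (X.map (fun x i => x (e (Sum.inl i))))
      (S.submatrix (fun i => e (Sum.inl i)) (fun i => e (Sum.inl i))) +
        Fintype.card κ / 2 * (Real.log (2 * Real.pi) + 1 + Real.log c) := by
  set f : ι' → ι := fun i => e (Sum.inl i) with hf
  have hfi : Function.Injective f := e.injective.comp Sum.inl_injective
  set X' : Measure (ι' → ℝ) := X.map (fun x i => x (e (Sum.inl i))) with hX'
  have hmf : Measurable (fun (x : ι → ℝ) (i : ι') => x (e (Sum.inl i))) := by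
    have : Continuous (fun (x : ι → ℝ) (i : ι') => x (e (Sum.inl i))) := by fun_prop
    exact this.measurable
  have hP' : IsProbabilityMeasure X' := Measure.isProbabilityMeasure_map hmf.aemeasurable
  set S' : Matrix ι' ι' ℝ := S.submatrix f f with hS'def
  have hS' : S'.PosDef := hS.submatrix hfi
  have hX2 : Integrable (fun x => ‖x‖ ^ 2) X' := by
    have hcn : Continuous (fun x : ι' → ℝ => ‖x‖ ^ 2) := continuous_norm.pow 2
    rw [hX', integrable_map_measure hcn.aestronglyMeasurable hmf.aemeasurable]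
    refine hX.mono' (hcn.measurable.comp hmf).aestronglyMeasurable (ae_of_all _ fun x => ?_)
    rw [Function.comp_apply, Real.norm_eq_abs, abs_of_nonneg (by positivity)]
    gcongr
    refine (pi_norm_le_iff_of_nonneg (norm_nonneg _)).mpr fun i => ?_
    exact norm_le_pi_norm x (e (Sum.inl i))
  have hT := posDef_smul_one (κ := κ) hc
  set T : Matrix κ κ ℝ := c • (1 : Matrix κ κ ℝ) with hTdef
  set g : (ι → ℝ) → ℝ := fun z => dens X' S' (fun i => z (e (Sum.inl i))) * gk T (Rm *ᵥ z) with hg
  have hg0 : ∀ z, 0 < g z := fun z => mul_pos (dens_pos hS' _) (gk_pos hT _)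
  have hgc : Continuous g := by
    refine ((continuous_dens hS').comp (by fun_prop)).mul
      ((continuous_gk T).comp (continuous_mulVec' Rm))
  have hgl : ∫⁻ z, ENNReal.ofReal (g z) = 1 := by
    have := lintegral_comparison e (X' := X') hS' hT hL
    rw [← this]
    refine lintegral_congr fun z => ?_
    rw [hg, ← hR]
  have hgi : Integrable g := by
    refine ⟨hgc.aestronglyMeasurable, ?_⟩
    rw [hasFiniteIntegral_iff_ofReal (ae_of_all _ fun y => (hg0 y).le), hgl]
    exact ENNReal.one_lt_top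
  have hgI : ∫ z, g z = 1 := by
    rw [integral_eq_lintegral_of_nonneg_ae (ae_of_all _ fun y => (hg0 y).le)
      hgc.aestronglyMeasurable, hgl, ENNReal.toReal_one]
  have hsq : Continuous (fun y : κ → ℝ => ∑ a, y a ^ 2) := by
    refine continuous_finsetSum _ fun a _ => ?_
    exact (continuous_apply a).pow 2
  -- the law of the statistic
  have hlaw := map_lin_sm (X := X) hS Rm hRX hc hRS
  have hmR : Measurable fun z : ι → ℝ => Rm *ᵥ z := (continuous_mulVec' Rm).measurable
  have hI1 : Integrable (fun z : ι → ℝ => ∑ a, (Rm *ᵥ z) a ^ 2) (sm X S) := by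
    have h1 : Integrable (fun y : κ → ℝ => ∑ a, y a ^ 2) ((sm X S).map (fun z => Rm *ᵥ z)) := by
      rw [hlaw, integrable_map_measure hsq.aestronglyMeasurable
        (continuous_mulVec' _).measurable.aemeasurable]
      exact integrable_sum_sq c
    exact (integrable_map_measure hsq.aestronglyMeasurable hmR.aemeasurable).mp h1
  have hE1 : ∫ z : ι → ℝ, ∑ a, (Rm *ᵥ z) a ^ 2 ∂(sm X S) = Fintype.card κ * c := by
    have h1 : ∫ z : ι → ℝ, ∑ a, (Rm *ᵥ z) a ^ 2 ∂(sm X S) =
        ∫ y : κ → ℝ, ∑ a, y a ^ 2 ∂((sm X S).map (fun z => Rm *ᵥ z)) := by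
      rw [integral_map hmR.aemeasurable hsq.aestronglyMeasurable]
    rw [h1, hlaw, integral_map (continuous_mulVec' _).measurable.aemeasurable
      hsq.aestronglyMeasurable]
    exact integral_sum_sq hc
  -- the marginal
  have hmarg := sm_map_comp (X := X) hfi hS
  have hmargI : Integrable (fun u => Real.log (dens X' S' u)) (sm X' S') := by
    rw [integrable_sm hS']
    have h1 := integrable_negMulLog_dens hS' hX2
    have h2 : (fun z => Real.log (dens X' S' z) * dens X' S' z) =
        fun z => -Real.negMulLog (dens X' S' z) := by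
      ext z
      rw [Real.negMulLog]
      ring
    rw [h2]
    exact h1.neg
  have hmargE : ∫ u, Real.log (dens X' S' u) ∂(sm X' S') = -hh X' S' := by
    rw [integral_sm hS', hh, ← integral_neg]
    refine integral_congr_ae (ae_of_all _ fun z => ?_)
    simp only [Real.negMulLog]
    ring
  have hmz : Measurable fun z : ι → ℝ => z ∘ f := by
    have : Continuous fun z : ι → ℝ => z ∘ f := by fun_prop
    exact this.measurable
  have hlc : AEStronglyMeasurable (fun u => Real.log (dens X' S' u))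
      ((sm X S).map (fun z => z ∘ f)) := by
    have : Continuous (fun u => Real.log (dens X' S' u)) :=
      (continuous_dens hS').log fun u => (dens_pos hS' u).ne'
    exact this.aestronglyMeasurable
  have hmarg' : (sm X S).map (fun z => z ∘ f) = sm X' S' := hmarg
  have hI2 : Integrable (fun z : ι → ℝ => Real.log (dens X' S' (z ∘ f))) (sm X S) := by
    have h1 := hmargI
    rw [← hmarg'] at h1
    exact (integrable_map_measure hlc hmz.aemeasurable).mp h1
  have hE2 : ∫ z : ι → ℝ, Real.log (dens X' S' (z ∘ f)) ∂(sm X S) = -hh X' S' := by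
    rw [← hmargE, ← hmarg', integral_map hmz.aemeasurable hlc]
  -- the logarithm of the comparison density
  have hlog : ∀ z, Real.log (g z) = Real.log (dens X' S' (z ∘ f)) +
      (-(Fintype.card κ / 2 * Real.log (2 * Real.pi * c)) -
        (2 * c)⁻¹ * ∑ a, (Rm *ᵥ z) a ^ 2) := by
    intro z
    rw [hg, ← log_gk_smul hc]
    exact Real.log_mul (dens_pos hS' _).ne' (gk_pos hT _).ne'
  have hPs := isProb_sm (X := X) hS
  have hJ : Integrable (fun z : ι → ℝ => -(Fintype.card κ / 2 * Real.log (2 * Real.pi * c)) -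
        (2 * c)⁻¹ * ∑ a, (Rm *ᵥ z) a ^ 2) (sm X S) := (integrable_const _).sub (hI1.const_mul _)
  have hJ2 : Integrable (fun z : ι → ℝ => (2 * c)⁻¹ * ∑ a, (Rm *ᵥ z) a ^ 2) (sm X S) :=
    hI1.const_mul _
  have hI3 : Integrable (fun z => Real.log (g z)) (sm X S) := by
    simp only [hlog]
    exact hI2.add hJ
  have hE3 : ∫ z, Real.log (g z) ∂(sm X S) = -hh X' S' +
      (-(Fintype.card κ / 2 * Real.log (2 * Real.pi * c)) - (2 * c)⁻¹ * (Fintype.card κ * c)) := by
    simp only [hlog]
    rw [integral_add hI2 hJ, integral_sub (integrable_const _) hJ2, hE2, integral_const_mul, hE1,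
      integral_const, probReal_univ, one_smul]
  have hG := gibbs (f := dens X S) (g := g) (fun z => dens_pos hS z) hg0 (integrable_dens hS) hgi
    (by rw [hgI, integral_dens hS]) (integrable_negMulLog_dens hS hX)
    ((integrable_sm hS _).mp hI3)
  rw [← integral_sm hS, hE3] at hG
  have hlogc : Real.log (2 * Real.pi * c) = Real.log (2 * Real.pi) + Real.log c :=
    Real.log_mul (by positivity) hc.ne'
  rw [hlogc] at hG
  have hcc : (2 * c)⁻¹ * (Fintype.card κ * c) = (Fintype.card κ : ℝ) / 2 := by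
    field_simp
  rw [hcc] at hG
  change (∫ z, Real.negMulLog (dens X S z)) ≤ _
  linarith

end main

section star

variable {q k : ℕ} {lam : ℝ}

/-- splitting off the last leaf. -/
def lastE (q k : ℕ) : (Option (Fin q) × Fin k) ⊕ Fin k ≃ Option (Fin (q + 1)) × Fin k where
  toFun := Sum.elim (fun p => (Option.map Fin.castSucc p.1, p.2)) (fun a => (some (Fin.last q), a))
  invFun p := match p with
    | (none, a) => Sum.inl (none, a)
    | (some i, a) => Fin.lastCases (motive := fun _ => (Option (Fin q) × Fin k) ⊕ Fin k)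
        (Sum.inr a) (fun j => Sum.inl (some j, a)) i
  left_inv := by
    rintro (⟨(_ | j), a⟩ | a)
    · rfl
    · simp
    · simp
  right_inv := by
    rintro ⟨(_ | i), a⟩
    · rfl
    · refine Fin.lastCases ?_ (fun j => ?_) i
      · simp
      · simp

/-- **(E4)** -/
theorem E4 (lam : ℝ) (X : Measure (Option (Fin (q + 1)) × Fin k → ℝ)) [IsProbabilityMeasure X]
    (hX : Integrable (fun x => ‖x‖ ^ 2) X)
    (hXlam : ∀ᵐ x ∂X, ∀ a : Fin k, ∑ i : Fin (q + 1), x (some i, a) = lam * x (none, a))
    (Sig : Matrix (Option (Fin (q + 1))) (Option (Fin (q + 1))) ℝ) (hSig : Sig.PosDef)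
    (S : Matrix (Option (Fin (q + 1)) × Fin k) (Option (Fin (q + 1)) × Fin k) ℝ)
    (hS : ∀ p p', S p p' = if p.2 = p'.2 then Sig p.1 p'.1 else 0)
    (S' : Matrix (Option (Fin q) × Fin k) (Option (Fin q) × Fin k) ℝ)
    (hS' : ∀ p p', S' p p' =
      if p.2 = p'.2 then Sig (Option.map Fin.castSucc p.1) (Option.map Fin.castSucc p'.1) else 0) :
    hh X S ≤ hh (X.map (fun x p => x (Option.map Fin.castSucc p.1, p.2))) S' +
      k / 2 * (Real.log (2 * Real.pi) + 1 + Real.log (∑ x : Option (Fin (q + 1)),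
        ∑ y : Option (Fin (q + 1)), x.elim (-lam) (fun _ => 1) * y.elim (-lam) (fun _ => 1) *
          Sig x y)) := by
  set w : Option (Fin (q + 1)) → ℝ := fun x => x.elim (-lam) (fun _ => 1) with hw
  set c : ℝ := ∑ x, ∑ y, w x * w y * Sig x y with hc
  have hwne : w ≠ 0 := by
    intro h
    have := congrFun h (some 0)
    simp [hw] at this
  have hcpos : 0 < c := by
    have h1 := hSig.dotProduct_mulVec_pos hwne
    have h2 : star w ⬝ᵥ Sig *ᵥ w = c := by
      rw [hc, dotProduct]
      refine Finset.sum_congr rfl fun x _ => ?_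
      rw [mulVec, dotProduct, Finset.mul_sum]
      refine Finset.sum_congr rfl fun y _ => ?_
      simp only [Pi.star_apply, star_trivial]
      ring
    rwa [h2] at h1
  -- `S` is positive definite
  have hSpd : S.PosDef := by
    refine Matrix.PosDef.of_dotProduct_mulVec_pos ?_ ?_
    · ext p p'
      rw [conjTranspose_apply, star_trivial, hS, hS]
      have h1 : Sig p'.1 p.1 = Sig p.1 p'.1 := by
        have := hSig.isHermitian.apply p.1 p'.1
        simpa using this
      by_cases h : p.2 = p'.2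
      · rw [if_pos h, if_pos h.symm, h1]
      · rw [if_neg h, if_neg (fun e => h e.symm)]
    · intro x hx
      have h1 : star x ⬝ᵥ S *ᵥ x = ∑ a : Fin k,
          (star (fun i => x (i, a)) ⬝ᵥ Sig *ᵥ (fun i => x (i, a))) := by
        have h2 : ∀ i a, (S *ᵥ x) (i, a) = (Sig *ᵥ (fun j => x (j, a))) i := by
          intro i a
          rw [mulVec, dotProduct, Fintype.sum_prod_type, mulVec, dotProduct]
          refine Finset.sum_congr rfl fun j _ => ?_
          rw [Finset.sum_eq_single a]
          · rw [hS, if_pos rfl]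
          · intro b _ hb
            rw [hS, if_neg (Ne.symm hb), zero_mul]
          · intro h
            exact absurd (Finset.mem_univ _) h
        rw [dotProduct, Fintype.sum_prod_type, Finset.sum_comm]
        refine Finset.sum_congr rfl fun a _ => ?_
        rw [dotProduct]
        refine Finset.sum_congr rfl fun i _ => ?_
        rw [h2]
        rfl
      rw [h1]
      obtain ⟨⟨i0, a0⟩, h0⟩ := Function.ne_iff.mp hx
      refine Finset.sum_pos' (fun a _ => ?_) ⟨a0, Finset.mem_univ _, ?_⟩
      · exact hSig.posSemidef.dotProduct_mulVec_nonneg _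
      · refine hSig.dotProduct_mulVec_pos ?_
        intro h
        exact h0 (congrFun h i0)
  set Rm : Matrix (Fin k) (Option (Fin (q + 1)) × Fin k) ℝ :=
    fun a p => if a = p.2 then w p.1 else 0 with hRm
  have hRv : ∀ z a, (Rm *ᵥ z) a = ∑ x, w x * z (x, a) := by
    intro z a
    rw [mulVec, dotProduct, Fintype.sum_prod_type]
    refine Finset.sum_congr rfl fun x _ => ?_
    rw [Finset.sum_eq_single a]
    · simp [hRm]
    · intro b _ hb
      simp [hRm, Ne.symm hb]
    · intro h
      exact absurd (Finset.mem_univ _) h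
  set L : (Option (Fin q) × Fin k → ℝ) → Fin k → ℝ :=
    fun u a => -lam * u (none, a) + ∑ i : Fin q, u (some i, a) with hL
  have hLc : Continuous L := by
    rw [hL]
    fun_prop
  have hR : ∀ z : Option (Fin (q + 1)) × Fin k → ℝ, Rm *ᵥ z =
      (fun j => z (lastE q k (Sum.inr j))) + L (fun i => z (lastE q k (Sum.inl i))) := by
    intro z
    ext a
    rw [hRv, Fintype.sum_option, Fin.sum_univ_castSucc, Pi.add_apply]
    simp only [hw, hL, Option.elim_none, Option.elim_some, one_mul]
    change _ = z (some (Fin.last q), a) + (-lam * z (none, a) + ∑ i : Fin q, z (some i.castSucc, a))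
    ring
  have hRX : ∀ᵐ x ∂X, Rm *ᵥ x = 0 := by
    filter_upwards [hXlam] with x hx
    ext a
    rw [hRv, Fintype.sum_option]
    simp only [hw, Option.elim_none, Option.elim_some, one_mul, hx a]
    change -lam * x (none, a) + lam * x (none, a) = 0
    ring
  have hRS : Rm * S * Rmᵀ = c • (1 : Matrix (Fin k) (Fin k) ℝ) := by
    ext a b
    rw [Matrix.mul_assoc, mul_apply, Matrix.smul_apply, smul_eq_mul, one_apply]
    have h1 : ∀ x a', (S * Rmᵀ) (x, a') b = if a' = b then ∑ y, Sig x y * w y else 0 := by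
      intro x a'
      rw [mul_apply, Fintype.sum_prod_type]
      by_cases h : a' = b
      · subst h
        rw [if_pos rfl]
        refine Finset.sum_congr rfl fun y _ => ?_
        rw [Finset.sum_eq_single a']
        · rw [hS, transpose_apply, hRm, if_pos rfl]
          simp
        · intro b' _ hb
          rw [hS, if_neg (Ne.symm hb), zero_mul]
        · intro h
          exact absurd (Finset.mem_univ _) h
      · rw [if_neg h]
        refine Finset.sum_eq_zero fun y _ => Finset.sum_eq_zero fun b' _ => ?_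
        rw [hS, transpose_apply, hRm]
        by_cases h2 : a' = b'
        · subst h2
          have h3 : ¬ b = a' := fun e => h e.symm
          simp [h3]
        · simp [h2]
    rw [Fintype.sum_prod_type]
    have h2 : ∀ x, ∑ a', Rm a (x, a') * (S * Rmᵀ) (x, a') b =
        if a = b then w x * ∑ y, Sig x y * w y else 0 := by
      intro x
      rw [Finset.sum_eq_single a]
      · rw [h1, hRm]
        by_cases h : a = b
        · simp [h]
        · simp [h]
      · intro b' _ hb
        rw [hRm]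
        simp [Ne.symm hb]
      · intro h
        exact absurd (Finset.mem_univ _) h
    simp only [h2]
    by_cases h : a = b
    · simp only [if_pos h, mul_one, hc]
      refine Finset.sum_congr rfl fun x _ => ?_
      rw [Finset.mul_sum]
      refine Finset.sum_congr rfl fun y _ => ?_
      ring
    · simp [h]
  have hmain := hh_split_le (lastE q k) hSpd hX Rm L hLc hR hRX hcpos hRS
  have hSS : S.submatrix (fun i => lastE q k (Sum.inl i)) (fun i => lastE q k (Sum.inl i)) = S' := by
    ext p p'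
    rw [submatrix_apply, hS, hS']
    rfl
  rw [hSS, Fintype.card_fin] at hmain
  exact hmain

end star

end Vale.Agent.P156.H574
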