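import Vale.Agent.P156.H574.E4
import Vale.Agent.P156.H814.D4

/-!
# P156, D: the interface `SpecE4` of H814/D4
-/

open MeasureTheory

noncomputable section

namespace Vale.Agent.P156.H574

/-- The entropy inequality (E4) in the form used by the assembly of block D. -/
theorem specE4 : H814.SpecE4 := by
  intro q k lam X _ Sig hX hXlam hSig
  exact E4 lam X hX hXlam Sig hSig (H814.fullS k Sig) (fun _ _ => rfl)
    (H814.fullS k (Sig.submatrix (Option.map Fin.castSucc) (Option.map Fin.castSucc)))
    (fun _ _ => rfl)

end Vale.Agent.P156.H574
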